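import Mathlib

/-!
States, protocols with local operations and public communication, and their key error.
-/

open Matrix Finset
open scoped ComplexOrder

namespace Vale.Agent.P372.Zero

/-- A density matrix. -/
def State {ι : Type} [Fintype ι] (ρ : Matrix ι ι ℂ) : Prop :=
  ρ.PosSemidef ∧ ρ.trace = 1

/-- A finite convex combination of product states. -/
def Separable {dA dB : ℕ} (ρ : Matrix (Fin dA × Fin dB) (Fin dA × Fin dB) ℂ) : Prop :=
  ∃ (r : ℕ) (w : Fin r → ℝ) (α : Fin r → Matrix (Fin dA) (Fin dA) ℂ)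
    (β : Fin r → Matrix (Fin dB) (Fin dB) ℂ),
    (∀ k, 0 ≤ w k) ∧ (∑ k, w k = 1) ∧ (∀ k, State (α k) ∧ State (β k)) ∧
    ∀ x y, ρ x y = ∑ k, (w k : ℂ) * (α k x.1 y.1 * β k x.2 y.2)

/-- The `n`-fold tensor power, the first factor of every copy with Alice, the second with Bob. -/
def copies {dA dB : ℕ} (ρ : Matrix (Fin dA × Fin dB) (Fin dA × Fin dB) ℂ) (n : ℕ) :
    Matrix (Fin (dA ^ n) × Fin (dB ^ n)) (Fin (dA ^ n) × Fin (dB ^ n)) ℂ :=
  fun x y => ∏ k, ρ (finFunctionFinEquiv.symm x.1 k, finFunctionFinEquiv.symm x.2 k)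
    (finFunctionFinEquiv.symm y.1 k, finFunctionFinEquiv.symm y.2 k)

/-- A protocol of local operations and public communication with finitely many rounds, for
local dimensions `a` and `b`, ending in keys of `ℓ` bits. In a round one party applies an
instrument (with arbitrary output dimensions) and publishes its outcome; the continuation may
depend on everything published. At the end each party measures its system to obtain its key. -/
inductive LOPC (ℓ : ℕ) : ℕ → ℕ → Type
  | done {a b : ℕ} (A : (Fin ℓ → Bool) → Matrix (Fin a) (Fin a) ℂ)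
      (B : (Fin ℓ → Bool) → Matrix (Fin b) (Fin b) ℂ)
      (hA : (∀ z, (A z).PosSemidef) ∧ ∑ z, A z = 1)
      (hB : (∀ z, (B z).PosSemidef) ∧ ∑ z, B z = 1) : LOPC ℓ a b
  | alice {a b : ℕ} (c : ℕ) (out r : Fin c → ℕ)
      (M : (i : Fin c) → Fin (r i) → Matrix (Fin (out i)) (Fin a) ℂ)
      (hM : ∑ i, ∑ j, (M i j)ᴴ * M i j = 1)
      (next : (i : Fin c) → LOPC ℓ (out i) b) : LOPC ℓ a b
  | bob {a b : ℕ} (c : ℕ) (out r : Fin c → ℕ)
      (M : (i : Fin c) → Fin (r i) → Matrix (Fin (out i)) (Fin b) ℂ)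
      (hM : ∑ i, ∑ j, (M i j)ᴴ * M i j = 1)
      (next : (i : Fin c) → LOPC ℓ a (out i)) : LOPC ℓ a b

namespace LOPC

variable {ℓ : ℕ}

/-- The complete public transcript. -/
def Transcript : {a b : ℕ} → LOPC ℓ a b → Type
  | _, _, done _ _ _ _ => Unit
  | _, _, alice c _ _ _ _ next => (i : Fin c) × (next i).Transcript
  | _, _, bob c _ _ _ _ next => (i : Fin c) × (next i).Transcript

noncomputable instance instFintype : {a b : ℕ} → (P : LOPC ℓ a b) → Fintype P.Transcript
  | _, _, done _ _ _ _ => inferInstanceAs (Fintype Unit)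
  | _, _, alice c _ _ _ _ next =>
      haveI := fun i => instFintype (next i)
      inferInstanceAs (Fintype ((i : Fin c) × (next i).Transcript))
  | _, _, bob c _ _ _ _ next =>
      haveI := fun i => instFintype (next i)
      inferInstanceAs (Fintype ((i : Fin c) × (next i).Transcript))

/-- The effect on Alice's initial system of a transcript and a key of Alice. -/
noncomputable def effA : {a b : ℕ} → (P : LOPC ℓ a b) → P.Transcript → (Fin ℓ → Bool) →
    Matrix (Fin a) (Fin a) ℂ
  | _, _, done A _ _ _ => fun _ z => A z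
  | _, _, alice _ _ _ M _ next => fun t z =>
      ∑ j, (M t.1 j)ᴴ * (next t.1).effA t.2 z * M t.1 j
  | _, _, bob _ _ _ _ _ next => fun t z => (next t.1).effA t.2 z

/-- The effect on Bob's initial system of a transcript and a key of Bob. -/
noncomputable def effB : {a b : ℕ} → (P : LOPC ℓ a b) → P.Transcript → (Fin ℓ → Bool) →
    Matrix (Fin b) (Fin b) ℂ
  | _, _, done _ B _ _ => fun _ z => B z
  | _, _, alice _ _ _ _ _ next => fun t z => (next t.1).effB t.2 z
  | _, _, bob _ _ _ M _ next => fun t z =>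
      ∑ j, (M t.1 j)ᴴ * (next t.1).effB t.2 z * M t.1 j

/-- The effect of Alice's key, Bob's key and the transcript. -/
noncomputable def effect {a b : ℕ} (P : LOPC ℓ a b) (z z' : Fin ℓ → Bool) (t : P.Transcript) :
    Matrix (Fin a × Fin b) (Fin a × Fin b) ℂ :=
  fun x y => P.effA t z x.1 y.1 * P.effB t z' x.2 y.2

open Classical in
/-- The final state of both keys and Eve, who holds the purifying system and the transcript.
The purification is `∑ R x e |x⟩|e⟩`, so Eve's unnormalised state for an effect `F` is the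
transpose of `Rᴴ * F * R`. -/
noncomputable def finalState {a b : ℕ} (P : LOPC ℓ a b) {γ : Type} [Fintype γ]
    (R : Matrix (Fin a × Fin b) γ ℂ) :
    Matrix ((Fin ℓ → Bool) × (Fin ℓ → Bool) × P.Transcript × γ)
      ((Fin ℓ → Bool) × (Fin ℓ → Bool) × P.Transcript × γ) ℂ :=
  fun x y => if x.1 = y.1 ∧ x.2.1 = y.2.1 ∧ x.2.2.1 = y.2.2.1
    then (Rᴴ * P.effect x.1 x.2.1 x.2.2.1 * R) y.2.2.2 x.2.2.2 else 0

/-- Two equal uniform keys, uncorrelated with the state `σ` of Eve. -/
noncomputable def idealState (ℓ : ℕ) {ε : Type} (σ : Matrix ε ε ℂ) :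
    Matrix ((Fin ℓ → Bool) × (Fin ℓ → Bool) × ε) ((Fin ℓ → Bool) × (Fin ℓ → Bool) × ε) ℂ :=
  fun x y => if x.1 = x.2.1 ∧ y.1 = y.2.1 ∧ x.1 = y.1
    then ((2 : ℂ) ^ ℓ)⁻¹ * σ x.2.2 y.2.2 else 0

end LOPC

open Classical in
/-- The trace norm, the trace of the square root of `Xᴴ * X`. -/
noncomputable def traceNorm {ι : Type} [Fintype ι] (X : Matrix ι ι ℂ) : ℝ :=
  ∑ i, Real.sqrt ((Matrix.posSemidef_conjTranspose_mul_self X).1.eigenvalues i)

/-- The error of a protocol against Eve's ideal state `σ`. -/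
noncomputable def error {ℓ a b : ℕ} (P : LOPC ℓ a b) {γ : Type} [Fintype γ]
    (R : Matrix (Fin a × Fin b) γ ℂ)
    (σ : Matrix (P.Transcript × γ) (P.Transcript × γ) ℂ) : ℝ :=
  traceNorm (P.finalState R - LOPC.idealState ℓ σ)

end Vale.Agent.P372.Zero
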