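import Vale.Agent.P372.Full.Defs
import Vale.Agent.P372.KeyBound

/-!
On a linked state every protocol has error at least one half.
-/

open Matrix Finset
open scoped ComplexOrder Kronecker

namespace Vale.Agent.P372.Zero

open Vale.Agent.Results.P372.IndividualMeasurements (prodOp)
open Vale.Agent.P372.Link

lemma LOPC.eff_psd {ℓ : ℕ} : ∀ {a b : ℕ} (P : LOPC ℓ a b) (t : P.Transcript) (z : Fin ℓ → Bool),
    (P.effA t z).PosSemidef ∧ (P.effB t z).PosSemidef
  | _, _, .done _ _ hA hB, _, z => ⟨hA.1 z, hB.1 z⟩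
  | _, _, .alice c _ _ M _ next, t, z =>
      let t' : (i : Fin c) × (next i).Transcript := t
      ⟨adj_psd (M t'.1) (LOPC.eff_psd (next t'.1) t'.2 z).1,
        (LOPC.eff_psd (next t'.1) t'.2 z).2⟩
  | _, _, .bob c _ _ M _ next, t, z =>
      let t' : (i : Fin c) × (next i).Transcript := t
      ⟨(LOPC.eff_psd (next t'.1) t'.2 z).1,
        adj_psd (M t'.1) (LOPC.eff_psd (next t'.1) t'.2 z).2⟩

lemma traceNorm_eq {ι : Type} [Fintype ι] [inst : DecidableEq ι] (X : Matrix ι ι ℂ) :
    Vale.Agent.Results.P372.IndividualMeasurements.traceNorm X = traceNorm X := by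
  obtain rfl : inst = fun a b => Classical.propDecidable (a = b) := Subsingleton.elim _ _
  rfl

/-- Every protocol on a state in the image of a pair of maps with positive partial transpose
errs by at least one half, whatever purification and ideal state of the eavesdropper. -/
theorem error_ge {ℓ a b : ℕ} {α' β' ι κ γ : Type} [Fintype α'] [DecidableEq α'] [Fintype β']
    [DecidableEq β'] [Fintype ι] [Fintype κ] [Fintype γ] {r r' : ℕ} (hℓ : 1 ≤ ℓ)
    (P : LOPC ℓ a b) (K : ι → Matrix (Fin a) α' ℂ) (K' : κ → Matrix (Fin b) β' ℂ)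
    (L : Fin r → Matrix (Fin a) α' ℂ) (L' : Fin r' → Matrix (Fin b) β' ℂ)
    (hL : ∀ i p i' q, coef K i p i' q = coef L i q i' p)
    (hL' : ∀ i p i' q, coef K' i p i' q = coef L' i q i' p)
    {τ : Matrix (α' × β') (α' × β') ℂ} (hτ : τ.PosSemidef)
    (R : Matrix (Fin a × Fin b) γ ℂ) (hR : R * Rᴴ = channel (pairK K K') τ)
    (σ : Matrix (P.Transcript × γ) (P.Transcript × γ) ℂ) (hσ : State σ) :
    1 / 2 ≤ error P R σ := by
  classical
  let σ' : P.Transcript → Matrix γ γ ℂ := fun t => Matrix.of fun e e' => σ (t, e') (t, e)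
  choose M hM hMsum hbound using fun t => KeyBound.transcript_boundE hℓ K K' L L' hL hL' hτ R hR
    (P.effA t) (P.effB t) (fun z => (P.eff_psd t z).1) (fun z => (P.eff_psd t z).2) (σ' t)
  let W : (Fin ℓ → Bool) × (Fin ℓ → Bool) × P.Transcript × γ →
      Matrix ((Fin ℓ → Bool) × (Fin ℓ → Bool) × P.Transcript × γ)
        ((Fin ℓ → Bool) × (Fin ℓ → Bool) × P.Transcript × γ) ℂ :=
    fun w => Matrix.single w.1 w.1 1 ⊗ₖ (Matrix.single w.2.1 w.2.1 1 ⊗ₖ
      (Matrix.single w.2.2.1 w.2.2.1 1 ⊗ₖ (M w.2.2.1 w.2.2.2)ᵀ))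
  have hsingle : ∀ {η : Type} [Fintype η] [DecidableEq η] (k : η),
      (Matrix.single k k (1:ℂ)).PosSemidef := by
    intro η _ _ k
    rw [← Matrix.diagonal_single, Matrix.posSemidef_diagonal_iff]
    intro i
    by_cases h : i = k
    · subst h; simp
    · simp [Pi.single_eq_of_ne h]
  have hW : ∀ w, (W w).PosSemidef := fun w =>
    (hsingle w.1).kronecker ((hsingle w.2.1).kronecker
      ((hsingle w.2.2.1).kronecker (hM w.2.2.1 w.2.2.2).transpose))
  have hWsum : ∑ w, W w = 1 := by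
    have hk : ∀ {η : Type} [Fintype η] [DecidableEq η],
        ∑ k : η, Matrix.single k k (1:ℂ) = 1 := by
      intro η _ _
      ext x y
      simp [Matrix.sum_apply, Matrix.single_apply, Matrix.one_apply, ite_and]
    have hkron : ∀ {η θ : Type} [Fintype η] [DecidableEq η] [Fintype θ] [DecidableEq θ]
        {J : Type} [Fintype J] (F : η → J → Matrix θ θ ℂ), (∀ k, ∑ j, F k j = 1) →
        ∑ w : η × J, Matrix.single w.1 w.1 (1:ℂ) ⊗ₖ F w.1 w.2 = 1 := by
      intro η θ _ _ _ _ J _ F hF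
      rw [← Matrix.one_kronecker_one (m := η) (n := θ), ← hk (η := η), Fintype.sum_prod_type]
      ext x y
      simp only [Matrix.sum_apply, Matrix.kroneckerMap_apply, sum_mul, ← mul_sum]
      refine sum_congr rfl fun k _ => ?_
      rw [← Matrix.sum_apply, hF]
    have h3 : ∑ w : P.Transcript × γ, Matrix.single w.1 w.1 (1:ℂ) ⊗ₖ (M w.1 w.2)ᵀ = 1 :=
      hkron (fun t e => (M t e)ᵀ) fun t => by
        rw [← Matrix.transpose_sum, hMsum, Matrix.transpose_one]
    have h2 := hkron (η := Fin ℓ → Bool) (fun (_ : Fin ℓ → Bool) (w : P.Transcript × γ) =>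
      Matrix.single w.1 w.1 (1:ℂ) ⊗ₖ (M w.1 w.2)ᵀ) fun _ => h3
    exact hkron (η := Fin ℓ → Bool) (fun (_ : Fin ℓ → Bool) (w : (Fin ℓ → Bool) × P.Transcript × γ) =>
      Matrix.single w.1 w.1 (1:ℂ) ⊗ₖ (Matrix.single w.2.1 w.2.1 (1:ℂ) ⊗ₖ (M w.2.1 w.2.2)ᵀ))
      fun _ => h2
  have hval : ∀ z z' t w, (W (z, z', t, w) * (P.finalState R - LOPC.idealState ℓ σ)).trace =
      (M t w * (Rᴴ * prodOp (P.effA t z) (P.effB t z') * R -
        if z = z' then ((Fintype.card (Fin ℓ → Bool) : ℂ))⁻¹ • σ' t else 0)).trace := by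
    intro z z' t w
    have e0 : (Fintype.card (Fin ℓ → Bool) : ℂ) = 2 ^ ℓ := by simp
    rw [← Matrix.trace_transpose (M t w * _), Matrix.transpose_mul, Matrix.trace_mul_comm]
    simp only [Matrix.trace, Matrix.diag, Matrix.mul_apply, W, Matrix.kroneckerMap_apply,
      Matrix.single_apply, Fintype.sum_prod_type, ite_mul, one_mul, zero_mul, mul_ite, mul_zero,
      ite_and, Finset.sum_ite_irrel, Finset.sum_const_zero, Finset.sum_ite_eq, Finset.mem_univ,
      if_true, Matrix.sub_apply, Matrix.transpose_apply, LOPC.finalState, LOPC.idealState,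
      LOPC.effect, prodOp, e0]
    refine sum_congr rfl fun e _ => sum_congr rfl fun e' _ => ?_
    by_cases h : z = z' <;> simp [h, σ']
  calc (1 / 2 : ℝ) = ∑ t, (σ' t).trace.re / 2 := by
        rw [← sum_div, ← Complex.re_sum]
        have : ∑ t, (σ' t).trace = σ.trace := by
          simp [σ', Matrix.trace, Matrix.diag, Fintype.sum_prod_type]
        rw [this, hσ.2]; simp
    _ ≤ ∑ t, ∑ z, ∑ z', ∑ w, |(W (z, z', t, w) *
          (P.finalState R - LOPC.idealState ℓ σ)).trace.re| :=
        sum_le_sum fun t _ => by simp only [hval]; exact hbound t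
    _ = ∑ v, |(W v * (P.finalState R - LOPC.idealState ℓ σ)).trace.re| := by
        simp only [Fintype.sum_prod_type]
        rw [sum_comm]
        exact sum_congr rfl fun z _ => sum_comm
    _ ≤ Vale.Agent.Results.P372.IndividualMeasurements.traceNorm
          (P.finalState R - LOPC.idealState ℓ σ) :=
        Vale.Agent.Results.P372.IndividualMeasurements.measured_le_traceNorm W hW hWsum _
    _ = _ := traceNorm_eq _

end Vale.Agent.P372.Zero
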