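import Vale.Agent.P372.Full.Witness
import Vale.Agent.P372.Random.Complex

/-!
The family of sign matrices in the form used by the construction.
-/

open Matrix Finset
open scoped ComplexOrder

namespace Vale.Agent.P372.Full

/-- Sign matrices with bounded witness value and small doubled sum. -/
theorem exists_family : ∃ C : ℝ, 0 ≤ C ∧ ∀ η : ℝ, 0 < η →
    ∃ (d : ℕ) (U : Fin d → Fin d → Fin d → ℝ) (K : ℝ), 0 < d ∧ 1 ≤ K ∧ K ≤ η * d ∧
      (∀ k, ∑ i, ∑ j, U k i j ^ 2 = (d:ℝ)) ∧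
      (∀ a b : Fin d → ℂ, ∑ k, ‖∑ i, ∑ j, a i * (U k i j : ℂ) * b j‖ ^ 2 ≤
        C * (∑ i, ‖a i‖ ^ 2) * ∑ j, ‖b j‖ ^ 2) ∧
      ((K : ℂ) • (1 : Matrix (Pair d) (Pair d) ℂ) + nOp U).PosSemidef ∧
      ((K : ℂ) • (1 : Matrix (Pair d) (Pair d) ℂ) - nOp U).PosSemidef := by
  obtain ⟨C, hC⟩ := Random.exists_signs_complex
  refine ⟨max C 0, le_max_right _ _, fun η hη => ?_⟩
  obtain ⟨d0, hd0⟩ := hC η hη
  obtain ⟨d, hd, hd1, hdη⟩ : ∃ d : ℕ, d0 ≤ d ∧ 0 < d ∧ 1 ≤ η * d := by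
    refine ⟨max d0 (⌈1 / η⌉₊ + 1), le_max_left _ _, by omega, ?_⟩
    have h1 : 1 / η ≤ ((max d0 (⌈1 / η⌉₊ + 1) : ℕ) : ℝ) := by
      refine (Nat.le_ceil _).trans ?_
      exact_mod_cast le_trans (Nat.le_succ _) (le_max_right d0 _)
    rw [div_le_iff₀ hη] at h1; linarith
  obtain ⟨U, hU, hW, hN⟩ := hd0 d hd
  have hd' : (0:ℝ) < d := by exact_mod_cast hd1
  refine ⟨d, U, η * d, hd1, hdη, le_rfl, fun k => ?_, fun a b => ?_, ?_⟩
  · simp only [hU k, sum_const, card_univ, Fintype.card_fin, nsmul_eq_mul]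
    field_simp
  · refine le_trans (le_of_eq ?_) ((hW a b).trans ?_)
    · refine sum_congr rfl fun k _ => ?_
      congr 2
      exact sum_congr rfl fun i _ => sum_congr rfl fun j _ => by ring
    · gcongr; exact le_max_left _ _
  have hherm : (nOp U)ᴴ = nOp U := by
    ext x y
    simp only [conjTranspose_apply, nOp, Matrix.of_apply, Complex.star_def, Complex.conj_ofReal]
    congr 1
    exact sum_congr rfl fun k _ => mul_comm _ _
  have hq : ∀ v : Pair d → ℂ, |(star v ⬝ᵥ nOp U *ᵥ v).re| ≤ η * d * ∑ x, ‖v x‖ ^ 2 := by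
    intro v
    have e : star v ⬝ᵥ nOp U *ᵥ v = ∑ m, ∑ i, ∑ a, ∑ j, ∑ b,
        (U m i a : ℂ) * (U m b j : ℂ) * star (v (i, j)) * v (b, a) := by
      simp only [dotProduct, Matrix.mulVec, nOp, Matrix.of_apply, Pi.star_apply, Fintype.sum_prod_type,
        Complex.ofReal_sum, Complex.ofReal_mul, sum_mul, mul_sum]
      calc _ = ∑ i, ∑ a, ∑ j, ∑ b, ∑ m,
            (U m i a : ℂ) * (U m b j : ℂ) * star (v (i, j)) * v (b, a) := by
            refine sum_congr rfl fun i _ => ?_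
            conv_rhs => rw [sum_comm]
            refine sum_congr rfl fun j _ => ?_
            rw [sum_comm]
            exact sum_congr rfl fun a _ => sum_congr rfl fun b _ => sum_congr rfl fun m _ => by ring
        _ = _ := by
            conv_rhs => rw [sum_comm]
            refine sum_congr rfl fun i _ => ?_
            conv_rhs => rw [sum_comm]
            refine sum_congr rfl fun a _ => ?_
            conv_rhs => rw [sum_comm]
            exact sum_congr rfl fun j _ => sum_comm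
    have h := hN (fun i j => star (v (i, j))) fun a b => v (b, a)
    rw [← e, mul_assoc] at h
    have e1 : ∑ i, ∑ j, ‖star (v (i, j))‖ ^ 2 = ∑ x, ‖v x‖ ^ 2 := by
      simp [Fintype.sum_prod_type]
    have e2 : ∑ a, ∑ b, ‖v (b, a)‖ ^ 2 = ∑ x, ‖v x‖ ^ 2 := by
      rw [Fintype.sum_prod_type, sum_comm]
    rw [e1, e2, Real.mul_self_sqrt (sum_nonneg fun x _ => sq_nonneg _)] at h
    exact (Complex.abs_re_le_norm _).trans h
  have hpsd : ∀ M : Matrix (Pair d) (Pair d) ℂ, Mᴴ = M →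
      (∀ v : Pair d → ℂ, 0 ≤ (star v ⬝ᵥ M *ᵥ v).re) → M.PosSemidef := by
    intro M hM h
    refine Matrix.PosSemidef.of_dotProduct_mulVec_nonneg hM fun v => ?_
    have hi : starRingEnd ℂ (star v ⬝ᵥ M *ᵥ v) = star v ⬝ᵥ M *ᵥ v := by
      have h1 : star (star v ⬝ᵥ M *ᵥ v) = star v ⬝ᵥ M *ᵥ v := by
        rw [← Matrix.star_dotProduct, Matrix.star_mulVec, hM, Matrix.dotProduct_mulVec]
      exact h1
    exact Complex.nonneg_iff.2 ⟨h v, (Complex.conj_eq_iff_im.1 hi).symm⟩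
  have hone : ∀ v : Pair d → ℂ, (star v ⬝ᵥ (((η * d : ℝ) : ℂ) • (1 : Matrix (Pair d) (Pair d) ℂ)) *ᵥ v).re =
      η * d * ∑ x, ‖v x‖ ^ 2 := by
    intro v
    simp [dotProduct, Matrix.smul_mulVec, Complex.re_sum, mul_sum, Complex.sq_norm, Complex.normSq_apply]
    exact sum_congr rfl fun x _ => by ring
  have hs : ((((η * d : ℝ) : ℂ)) • (1 : Matrix (Pair d) (Pair d) ℂ))ᴴ = ((η * d : ℝ) : ℂ) • 1 := by
    rw [conjTranspose_smul, conjTranspose_one, Complex.star_def, Complex.conj_ofReal]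
  constructor
  · refine hpsd _ (by rw [conjTranspose_add, hs, hherm]) fun v => ?_
    rw [add_mulVec, dotProduct_add, Complex.add_re, hone]
    linarith [(abs_le.1 (hq v)).1]
  · refine hpsd _ (by rw [conjTranspose_sub, hs, hherm]) fun v => ?_
    rw [sub_mulVec, dotProduct_sub, Complex.sub_re, hone]
    linarith [(abs_le.1 (hq v)).2]

end Vale.Agent.P372.Full
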