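import Vale.Agent.P372.Full.Pairing

/-!
Kraus families from positive Choi matrices, and the weighted maximally entangled operator.
-/

open Matrix Finset
open scoped ComplexOrder

namespace Vale.Agent.P372.Full.Kraus

open Vale.Agent.Results.P372.IndividualMeasurements
open Vale.Agent.P372.Link

variable {α β γ : Type}

/-- A positive Choi matrix has a Kraus family with those coefficients. -/
lemma exists_kraus [Fintype α] [DecidableEq α] [Fintype γ] [DecidableEq γ]
    {J : Matrix (α × γ) (α × γ) ℂ} (hJ : J.PosSemidef) :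
    ∃ K : α × γ → Matrix α γ ℂ, ∀ i p i' q, coef K i p i' q = J (i, p) (i', q) := by
  obtain ⟨X, hX⟩ := psd_factor hJ
  refine ⟨fun j => Matrix.of fun i p => star (X j (i, p)), fun i p i' q => ?_⟩
  rw [hX]
  simp [coef, Matrix.mul_apply]

/-- Reindexed tensor powers of a Kraus family. -/
noncomputable def powFin {d : ℕ} {ι : Type} (e : Fin d ≃ α) (K : ι → Matrix α γ ℂ) (n : ℕ) :
    (Fin n → ι) → Matrix (Fin (d ^ n)) (Fin n → γ) ℂ :=
  fun j => (powK K n j).submatrix (fun i k => e (finFunctionFinEquiv.symm i k)) id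

lemma coef_powFin {d : ℕ} {ι : Type} [Fintype ι] (e : Fin d ≃ α) (K : ι → Matrix α γ ℂ) (n : ℕ)
    (i : Fin (d ^ n)) (p : Fin n → γ) (i' : Fin (d ^ n)) (q : Fin n → γ) :
    coef (powFin e K n) i p i' q = ∏ k, coef K (e (finFunctionFinEquiv.symm i k)) (p k)
      (e (finFunctionFinEquiv.symm i' k)) (q k) := by
  rw [← coef_powK]
  rfl

lemma coef_equiv {α' ι : Type} [Fintype ι] (F : ι → Matrix α α' ℂ) {κ : Type} [Fintype κ]
    (e : κ ≃ ι) (i : α) (p : α') (i' : α) (q : α') :
    coef (fun k => F (e k)) i p i' q = coef F i p i' q :=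
  Equiv.sum_comp e fun j => F j i p * star (F j i' q)

/-- The weighted maximally entangled vector, as an operator. -/
def omegaOp (γ : Type) [DecidableEq γ] (c : ℂ) : Matrix (γ × γ) (γ × γ) ℂ :=
  c • Matrix.vecMulVec (fun p => if p.1 = p.2 then 1 else 0) (fun p => if p.1 = p.2 then 1 else 0)

lemma omegaOp_psd (γ : Type) [Fintype γ] [DecidableEq γ] {c : ℂ} (hc : 0 ≤ c) :
    (omegaOp γ c).PosSemidef := by
  have h := Matrix.posSemidef_vecMulVec_self_star (R := ℂ)
    (fun p : γ × γ => if p.1 = p.2 then (1 : ℂ) else 0)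
  have e : star (fun p : γ × γ => if p.1 = p.2 then (1 : ℂ) else 0) =
      fun p : γ × γ => if p.1 = p.2 then (1 : ℂ) else 0 := by
    funext p; rw [Pi.star_apply]; split_ifs <;> simp
  rw [e] at h
  exact h.smul hc

lemma channel_omega {γ ι κ : Type} [Fintype γ] [DecidableEq γ] [Fintype ι] [Fintype κ]
    (K : ι → Matrix α γ ℂ) (K' : κ → Matrix β γ ℂ) (c : ℂ) (x y : α × β) :
    channel (pairK K K') (omegaOp γ c) x y =
      c * ∑ p, ∑ q, coef K x.1 p y.1 q * coef K' x.2 p y.2 q := by
  simp [channel_apply, coef_pairK, omegaOp, Matrix.vecMulVec_apply, Fintype.sum_prod_type,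
    mul_sum, ite_mul, mul_ite]

end Vale.Agent.P372.Full.Kraus
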