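import Vale.Agent.P372.Full.Site

/-!
The linked state and the value of the witness.
-/

open Matrix Finset
open scoped ComplexOrder

namespace Vale.Agent.P372.Full

open Vale.Agent.Results.P372.IndividualMeasurements
open Vale.Agent.P372.Link

variable {d m l : ℕ}

/-- Contraction of the second systems of two Choi matrices. -/
def linkOp {α β γ : Type} [Fintype γ] (X : Matrix (α × γ) (α × γ) ℂ)
    (Y : Matrix (β × γ) (β × γ) ℂ) : Matrix (α × β) (α × β) ℂ :=
  Matrix.of fun x y => ∑ c, ∑ c', X (x.1, c) (y.1, c') * Y (x.2, c) (y.2, c')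

lemma linkOp_add_left {α β γ : Type} [Fintype γ] (X X' : Matrix (α × γ) (α × γ) ℂ)
    (Y : Matrix (β × γ) (β × γ) ℂ) : linkOp (X + X') Y = linkOp X Y + linkOp X' Y := by
  ext x y; simp [linkOp, add_mul, sum_add_distrib]

lemma linkOp_add_right {α β γ : Type} [Fintype γ] (X : Matrix (α × γ) (α × γ) ℂ)
    (Y Y' : Matrix (β × γ) (β × γ) ℂ) : linkOp X (Y + Y') = linkOp X Y + linkOp X Y' := by
  ext x y; simp [linkOp, mul_add, sum_add_distrib]

lemma linkOp_smul {α β γ : Type} [Fintype γ] (r s : ℂ) (X : Matrix (α × γ) (α × γ) ℂ)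
    (Y : Matrix (β × γ) (β × γ) ℂ) : linkOp (r • X) (s • Y) = (r * s) • linkOp X Y := by
  ext x y
  simp only [linkOp, Matrix.smul_apply, Matrix.of_apply, smul_eq_mul, mul_sum]
  exact sum_congr rfl fun c _ => sum_congr rfl fun c' _ => by ring

lemma linkOp_tfam (X Y : Fin l → Matrix (Pair d) (Pair d) ℂ) :
    linkOp (tfam X) (tfam Y) = tfam fun i => linkOp (X i) (Y i) := by
  ext x y
  simp only [linkOp, tfam, Matrix.of_apply, ← prod_mul_distrib]
  rw [Fintype.prod_sum]
  refine sum_congr rfl fun c _ => ?_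
  rw [Fintype.prod_sum]

lemma trace_tfam (A : Fin l → Matrix (Pair d) (Pair d) ℂ) :
    (tfam A).trace = ∏ i, (A i).trace := by
  simp only [Matrix.trace, Matrix.diag, tfam]
  rw [Fintype.prod_sum,
    ← Equiv.sum_comp (Equiv.arrowProdEquivProdArrow (Fin l) (fun _ => Fin d) (fun _ => Fin d))]
  rfl

abbrev shuffle (l d : ℕ) : (Sys l d × Sys l d) ≃ Sites l d × (Tag l × Tag l) :=
  Equiv.prodProdProdComm _ _ _ _

/-- The link of two tagged sums. -/
lemma linkOp_tagged (F G : Finset (Fin l) → Matrix (Sites l d) (Sites l d) ℂ) :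
    linkOp ((∑ S, prodOp (F S) (eta S)).submatrix (shuffle l d) (shuffle l d))
        ((∑ S, prodOp (G S) (eta S)).submatrix (shuffle l d) (shuffle l d)) =
      ((2 : ℂ) ^ l • ∑ S, prodOp (linkOp (F S) (G S)) (eta S)).submatrix
        (shuffle l d) (shuffle l d) := by
  ext ⟨⟨a, e⟩, ⟨b, f⟩⟩ ⟨⟨a', e'⟩, ⟨b', f'⟩⟩
  simp only [linkOp, shuffle, Matrix.of_apply, Matrix.submatrix_apply, Equiv.prodProdProdComm_apply,
    Matrix.sum_apply, prodOp, eta, Matrix.smul_apply, smul_eq_mul, Fintype.sum_prod_type]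
  calc ∑ c : Fin l → Fin d, ∑ g : Tag l, ∑ c' : Fin l → Fin d, ∑ g' : Tag l,
        (∑ S, F S (a, c) (a', c') * (gmat S e e' * gmat S g g')) *
          ∑ T, G T (b, c) (b', c') * (gmat T f f' * gmat T g g')
      = ∑ S, ∑ T, (∑ c, ∑ c', F S (a, c) (a', c') * G T (b, c) (b', c')) *
          (gmat S e e' * gmat T f f') * (∑ g, ∑ g', gmat S g g' * gmat T g g') := by
        have hre : ∀ f h : (Fin l → Fin d) → (Fin l → Fin d) → Finset (Fin l) → ℂ,
            ∀ u v u' : Finset (Fin l) → ℂ, ∀ w : Tag l → Tag l → Finset (Fin l) → ℂ,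
            ∑ c, ∑ g, ∑ c', ∑ g', (∑ S, f c c' S * (u S * w g g' S)) *
              ∑ T, h c c' T * (v T * w g g' T) =
            ∑ S, ∑ T, (∑ c, ∑ c', f c c' S * h c c' T) * (u S * v T) *
              (∑ g, ∑ g', w g g' S * w g g' T) := by
          intro f h u v u' w
          simp only [← Fintype.sum_prod_type (f := fun p : (Fin l → Fin d) × Tag l =>
            ∑ c', ∑ g', (∑ S, f p.1 c' S * (u S * w p.2 g' S)) * ∑ T, h p.1 c' T * (v T * w p.2 g' T))]
          simp only [Finset.sum_mul_sum (s := (univ : Finset (Finset (Fin l))))]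
          calc _ = ∑ p : (Fin l → Fin d) × Tag l, ∑ q : (Fin l → Fin d) × Tag l, ∑ S, ∑ T,
                f p.1 q.1 S * (u S * w p.2 q.2 S) * (h p.1 q.1 T * (v T * w p.2 q.2 T)) := by
                simp only [Fintype.sum_prod_type]
            _ = ∑ S, ∑ T, ∑ p : (Fin l → Fin d) × Tag l, ∑ q : (Fin l → Fin d) × Tag l,
                f p.1 q.1 S * (u S * w p.2 q.2 S) * (h p.1 q.1 T * (v T * w p.2 q.2 T)) := by
                refine ((sum_congr rfl fun p _ => sum_comm).trans sum_comm).trans ?_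
                exact sum_congr rfl fun S _ => (sum_congr rfl fun p _ => sum_comm).trans sum_comm
            _ = _ := by
                refine sum_congr rfl fun S _ => sum_congr rfl fun T _ => ?_
                rw [sum_mul, Finset.sum_mul_sum, Fintype.sum_prod_type]
                refine sum_congr rfl fun c _ => sum_congr rfl fun g _ => ?_
                rw [sum_mul, Finset.sum_mul_sum, Fintype.sum_prod_type]
                refine sum_congr rfl fun c' _ => sum_congr rfl fun g' _ => ?_
                ring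
        exact hre (fun c c' S => F S (a, c) (a', c')) (fun c c' T => G T (b, c) (b', c'))
          (fun S => gmat S e e') (fun T => gmat T f f') (fun _ => 0) (fun g g' S => gmat S g g')
    _ = _ := by
        simp only [gmat_inner, mul_ite, mul_zero, Finset.sum_ite_eq, mem_univ, if_true, mul_sum]
        exact sum_congr rfl fun S _ => by ring

lemma trace_submatrix {α β : Type} [Fintype α] [Fintype β] (e : α ≃ β) (M : Matrix β β ℂ) :
    (M.submatrix e e).trace = M.trace := by
  simp only [Matrix.trace, Matrix.diag, Matrix.submatrix_apply]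
  exact Equiv.sum_comp e fun b => M b b

lemma trace_eta (S : Finset (Fin l)) :
    (eta S).trace = if S = ∅ then (2 : ℂ) ^ l * 2 ^ l else 0 := by
  rw [eta, kron_eq, Matrix.trace_kronecker, gmat_trace]
  split_ifs <;> simp

lemma trace_eta_mul (S U : Finset (Fin l)) :
    (eta S * eta U).trace = if S = U then (2 : ℂ) ^ l * 2 ^ l else 0 := by
  rw [eta_mul, trace_eta]
  by_cases h : S = U
  · subst h; simp
  · have : symmDiff S U ≠ ∅ := fun hh => h (symmDiff_eq_bot.1 hh)
    rw [if_neg this, if_neg h]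

/-- The linked operator. -/
noncomputable def linked (l : ℕ) (A B R A' B' R' : Matrix (Pair d) (Pair d) ℂ) :
    Matrix (Sys l d × Sys l d) (Sys l d × Sys l d) ℂ :=
  linkOp (choi l A B R) (choi l A' B' R')

/-- The witness. -/
def wit (l : ℕ) (Z : Matrix (Pair d) (Pair d) ℂ) :
    Matrix (Sys l d × Sys l d) (Sys l d × Sys l d) ℂ :=
  (∑ i : Fin l, prodOp (fam {i} 1 Z) (eta {i})).submatrix (shuffle l d) (shuffle l d)

lemma trace_linked (A B R A' B' R' : Matrix (Pair d) (Pair d) ℂ) :
    (linked l A B R A' B' R').trace = (2 : ℂ) ^ l * 2 ^ l * 2 ^ l *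
      ((linkOp A A').trace ^ l + (Real.sqrt 2 : ℂ) * (linkOp A R').trace ^ l +
        (Real.sqrt 2 : ℂ) * (linkOp R A').trace ^ l + 2 * (linkOp R R').trace ^ l) := by
  rw [linked, choi, choi]
  erw [linkOp_tagged]
  rw [trace_submatrix, trace_smul, trace_sum]
  rw [Finset.sum_eq_single (∅ : Finset (Fin l))]
  · rw [kron_eq, Matrix.trace_kronecker, trace_eta, if_pos rfl, smul_eq_mul]
    have h2 : (Real.sqrt 2 : ℂ) * (Real.sqrt 2 : ℂ) = 2 := by
      rw [← Complex.ofReal_mul, Real.mul_self_sqrt (by norm_num)]; simp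
    have e0 : ∀ (X Y : Matrix (Pair d) (Pair d) ℂ), fam (∅ : Finset (Fin l)) X Y = tfam fun _ => X :=
      fun X Y => by simp [fam]
    simp only [coefS, ↓reduceIte, e0, linkOp_add_left, linkOp_add_right]
    rw [show (tfam fun _ : Fin l => A') = (1:ℂ) • tfam (fun _ : Fin l => A') by simp,
      show (tfam fun _ : Fin l => A) = (1:ℂ) • tfam (fun _ : Fin l => A) by simp]
    simp only [linkOp_smul, linkOp_tfam, trace_add, trace_smul, trace_tfam, prod_const, card_univ,
      Fintype.card_fin, smul_eq_mul, h2]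
    ring
  · intro S _ hS
    rw [kron_eq, Matrix.trace_kronecker, trace_eta, if_neg hS, mul_zero]
  · simp

lemma trace_wit_linked (Z A B R A' B' R' : Matrix (Pair d) (Pair d) ℂ) :
    (linked l A B R A' B' R' * wit l Z).trace = (2 : ℂ) ^ l * 2 ^ l * 2 ^ l *
      ((l : ℂ) * ((linkOp B B' * Z).trace * (linkOp A A').trace ^ (l - 1))) := by
  rw [linked, choi, choi]
  erw [linkOp_tagged]
  rw [wit, Matrix.submatrix_mul_equiv, trace_submatrix, Matrix.smul_mul, trace_smul, Matrix.mul_sum,
    trace_sum, smul_eq_mul]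
  have key : ∀ i : Fin l,
      ((∑ S, prodOp (linkOp (coefS S A B R) (coefS S A' B' R')) (eta S)) *
        prodOp (fam {i} 1 Z) (eta {i})).trace =
      (2 : ℂ) ^ l * 2 ^ l * ((linkOp B B' * Z).trace * (linkOp A A').trace ^ (l - 1)) := by
    intro i
    rw [Matrix.sum_mul, trace_sum, Finset.sum_eq_single ({i} : Finset (Fin l))]
    · rw [prodOp_mul, kron_eq, Matrix.trace_kronecker, trace_eta_mul, if_pos rfl]
      have hc : ∀ X Y W : Matrix (Pair d) (Pair d) ℂ,
          coefS ({i} : Finset (Fin l)) X Y W = fam {i} X Y := fun X Y W => by simp [coefS]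
      rw [hc, hc, fam, fam, fam, linkOp_tfam, tfam_mul, trace_tfam]
      rw [← Finset.mul_prod_erase univ _ (mem_univ i)]
      have : ∀ j ∈ univ.erase i, ((linkOp (if j ∈ ({i} : Finset (Fin l)) then B else A)
          (if j ∈ ({i} : Finset (Fin l)) then B' else A')) *
            (if j ∈ ({i} : Finset (Fin l)) then Z else 1)).trace = (linkOp A A').trace := by
        intro j hj
        have : j ∉ ({i} : Finset (Fin l)) := by simpa using (mem_erase.1 hj).1
        simp [this]
      rw [prod_congr rfl this]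
      simp [card_erase_of_mem]
      ring
    · intro S _ hS
      rw [prodOp_mul, kron_eq, Matrix.trace_kronecker, trace_eta_mul, if_neg hS, mul_zero]
    · simp
  simp only [key, sum_const, card_univ, Fintype.card_fin, nsmul_eq_mul]
  ring

/-- The value at one site of the linear term. -/
lemma linkOp_nOp_id (U : Fin m → Fin d → Fin d → ℝ) :
    linkOp (nOp U) (nOp (idFam d)) = vecOp U := by
  ext ⟨p, q⟩ ⟨p', q'⟩
  simp only [linkOp, nOp, vecOp, idFam, Matrix.of_apply, univ_unique, sum_singleton]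
  rw [Finset.sum_eq_single q', Finset.sum_eq_single q]
  · simp
  · intro c _ hc; simp [Ne.symm hc]
  · simp
  · intro c _ hc
    refine sum_eq_zero fun c' _ => ?_
    simp [Ne.symm hc]
  · simp

lemma trace_linkOp_affine (U : Fin m → Fin d → Fin d → ℝ) (hU : ∀ k, ∑ i, ∑ j, U k i j ^ 2 = d)
    (α β : ℂ) : (linkOp (1 + α • nOp U) (1 + β • nOp (idFam d))).trace =
      ((d : ℂ) + β) * ((d : ℂ) ^ 2 + α * ((m : ℂ) * d)) := by
  have hrow : ∀ c c' : Fin d, ∑ b : Fin d,
      (1 + β • nOp (idFam d)) (b, c) (b, c') = if c = c' then ((d : ℂ) + β) else 0 := by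
    intro c c'
    simp only [Matrix.add_apply, Matrix.smul_apply, Matrix.one_apply, nOp, idFam, Matrix.of_apply,
      univ_unique, sum_singleton, sum_add_distrib, Prod.mk.injEq, true_and, smul_eq_mul]
    by_cases h : c = c'
    · subst h; simp [apply_ite (fun r : ℝ => (r : ℂ))]
    · simp [h, apply_ite (fun r : ℝ => (r : ℂ))]
  have e : (linkOp (1 + α • nOp U) (1 + β • nOp (idFam d))).trace =
      ∑ c, ∑ c', (∑ a, (1 + α • nOp U) (a, c) (a, c')) *
        ∑ b, (1 + β • nOp (idFam d)) (b, c) (b, c') := by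
    simp only [Matrix.trace, Matrix.diag, linkOp, Matrix.of_apply, Fintype.sum_prod_type,
      Finset.sum_mul_sum]
    refine (sum_congr rfl fun a _ => sum_comm).trans (sum_comm.trans ?_)
    refine sum_congr rfl fun c _ => ?_
    refine (sum_congr rfl fun a _ => sum_comm).trans sum_comm
  rw [e]
  simp only [hrow, mul_ite, mul_zero, Finset.sum_ite_eq, mem_univ, if_true, ← sum_mul]
  rw [mul_comm]
  congr 1
  simp only [Matrix.add_apply, Matrix.smul_apply, Matrix.one_apply, nOp, Matrix.of_apply,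
    smul_eq_mul, sum_add_distrib, if_true, sum_const, card_univ, Fintype.card_fin, nsmul_eq_mul,
    ← mul_sum]
  have : ∑ x : Fin d, ∑ i : Fin d, ((∑ k, U k i x * U k i x : ℝ) : ℂ) = (m : ℂ) * d := by
    rw [sum_comm]
    push_cast
    rw [sum_congr rfl fun i _ => sum_comm, sum_comm]
    have : ∀ k, ∑ i : Fin d, ∑ x : Fin d, (U k i x : ℂ) * (U k i x : ℂ) = (d : ℂ) := by
      intro k
      have := congrArg (fun r : ℝ => (r : ℂ)) (hU k)
      push_cast at this
      simpa [sq] using this
    simp [this]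
  rw [this]
  ring

lemma trace_vecOp_sq (U : Fin m → Fin d → Fin d → ℝ) (hU : ∀ k, ∑ i, ∑ j, U k i j ^ 2 = d) :
    ∃ Q : ℝ, (vecOp U * vecOp U).trace = (Q : ℂ) ∧ (m : ℝ) * (d : ℝ) ^ 2 ≤ Q := by
  refine ⟨∑ k, ∑ k', (∑ p : Pair d, U k p.1 p.2 * U k' p.1 p.2) ^ 2, ?_, ?_⟩
  · simp only [Matrix.trace, Matrix.diag, Matrix.mul_apply, vecOp, Matrix.of_apply]
    push_cast
    simp only [sq, Finset.sum_mul_sum]
    refine (sum_congr rfl fun p _ => sum_comm).trans (sum_comm.trans ?_)
    refine sum_congr rfl fun k _ => ?_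
    refine (sum_congr rfl fun p _ => sum_comm).trans (sum_comm.trans ?_)
    refine sum_congr rfl fun k' _ => sum_congr rfl fun p _ => sum_congr rfl fun q _ => ?_
    ring
  · calc (m : ℝ) * (d : ℝ) ^ 2 = ∑ _k : Fin m, ((d : ℝ)) ^ 2 := by simp
      _ ≤ _ := by
          refine sum_le_sum fun k _ => ?_
          refine le_trans (le_of_eq ?_) (single_le_sum (f := fun k' =>
            (∑ p : Pair d, U k p.1 p.2 * U k' p.1 p.2) ^ 2) (fun _ _ => sq_nonneg _) (mem_univ k))
          rw [← hU k, Fintype.sum_prod_type]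
          simp [sq]

end Vale.Agent.P372.Full
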