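import Vale.Agent.P372.Full.Error
import Vale.Agent.P372.Full.Pairing

/-!
No key from the link of two Choi matrices with positive partial transpose, for any number of
copies.
-/

open Matrix Finset Filter
open scoped ComplexOrder

namespace Vale.Agent.P372.Full

open Vale.Agent.Results.P372.IndividualMeasurements
open Vale.Agent.P372.Link

section Kraus

variable {α β γ : Type}

/-- A positive Choi matrix has a Kraus family with those coefficients. -/
lemma exists_kraus [Fintype α] [DecidableEq α] [Fintype γ] [DecidableEq γ]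
    {J : Matrix (α × γ) (α × γ) ℂ} (hJ : J.PosSemidef) :
    ∃ K : α × γ → Matrix α γ ℂ, ∀ i p i' q, coef K i p i' q = J (i, p) (i', q) := by
  obtain ⟨X, hX⟩ := psd_factor hJ
  refine ⟨fun j => Matrix.of fun i p => star (X j (i, p)), fun i p i' q => ?_⟩
  rw [hX]
  simp [coef, Matrix.mul_apply]

/-- Reindexed tensor powers of a Kraus family. -/
noncomputable def powFin {d : ℕ} {ι : Type} (e : Fin d ≃ α) (K : ι → Matrix α γ ℂ) (n : ℕ) :
    (Fin n → ι) → Matrix (Fin (d ^ n)) (Fin n → γ) ℂ :=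
  fun j => (powK K n j).submatrix (fun i k => e (finFunctionFinEquiv.symm i k)) id

lemma coef_powFin {d : ℕ} {ι : Type} [Fintype ι] (e : Fin d ≃ α) (K : ι → Matrix α γ ℂ) (n : ℕ)
    (i : Fin (d ^ n)) (p : Fin n → γ) (i' : Fin (d ^ n)) (q : Fin n → γ) :
    coef (powFin e K n) i p i' q = ∏ k, coef K (e (finFunctionFinEquiv.symm i k)) (p k)
      (e (finFunctionFinEquiv.symm i' k)) (q k) := by
  rw [← coef_powK]
  rfl

lemma coef_equiv {α' ι : Type} [Fintype ι] (F : ι → Matrix α α' ℂ) {κ : Type} [Fintype κ]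
    (e : κ ≃ ι) (i : α) (p : α') (i' : α) (q : α') :
    coef (fun k => F (e k)) i p i' q = coef F i p i' q :=
  Equiv.sum_comp e fun j => F j i p * star (F j i' q)

/-- The weighted maximally entangled vector, as an operator. -/
def omegaOp (γ : Type) [DecidableEq γ] (c : ℂ) : Matrix (γ × γ) (γ × γ) ℂ :=
  c • Matrix.vecMulVec (fun p => if p.1 = p.2 then 1 else 0) (fun p => if p.1 = p.2 then 1 else 0)

lemma omegaOp_psd (γ : Type) [Fintype γ] [DecidableEq γ] {c : ℂ} (hc : 0 ≤ c) :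
    (omegaOp γ c).PosSemidef := by
  have h := Matrix.posSemidef_vecMulVec_self_star (R := ℂ)
    (fun p : γ × γ => if p.1 = p.2 then (1 : ℂ) else 0)
  have e : star (fun p : γ × γ => if p.1 = p.2 then (1 : ℂ) else 0) =
      fun p : γ × γ => if p.1 = p.2 then (1 : ℂ) else 0 := by
    funext p; rw [Pi.star_apply]; split_ifs <;> simp
  rw [e] at h
  exact h.smul hc

lemma channel_omega {γ ι κ : Type} [Fintype γ] [DecidableEq γ] [Fintype ι] [Fintype κ]
    (K : ι → Matrix α γ ℂ) (K' : κ → Matrix β γ ℂ) (c : ℂ) (x y : α × β) :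
    channel (pairK K K') (omegaOp γ c) x y =
      c * ∑ p, ∑ q, coef K x.1 p y.1 q * coef K' x.2 p y.2 q := by
  simp [channel_apply, coef_pairK, omegaOp, Matrix.vecMulVec_apply, Fintype.sum_prod_type,
    mul_sum, ite_mul, mul_ite]

end Kraus

/-- The link of two Choi matrices with positive partial transpose gives no key. -/
theorem linkOp_no_key {α β γ : Type} [Fintype α] [DecidableEq α] [Fintype β] [DecidableEq β]
    [Fintype γ] [DecidableEq γ]
    {J : Matrix (α × γ) (α × γ) ℂ} {J' : Matrix (β × γ) (β × γ) ℂ}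
    (hJ : J.PosSemidef) (hJt : (ptr J).PosSemidef) (hJ' : J'.PosSemidef)
    (hJt' : (ptr J').PosSemidef) {dA dB : ℕ} (eA : Fin dA ≃ α) (eB : Fin dB ≃ β)
    {c : ℝ} (hc : 0 ≤ c) {ρ : Matrix (Fin dA × Fin dB) (Fin dA × Fin dB) ℂ}
    (hρ : ρ = ((c : ℂ) • linkOp J J').submatrix (eA.prodCongr eB) (eA.prodCongr eB)) :
    (∀ n ℓ : ℕ, 1 ≤ ℓ → ∀ (P : Zero.LOPC ℓ (dA ^ n) (dB ^ n)) (e : ℕ)
      (R : Matrix (Fin (dA ^ n) × Fin (dB ^ n)) (Fin e) ℂ), R * Rᴴ = Zero.copies ρ n →
      ∀ σ, Zero.State σ → 1 / 2 ≤ Zero.error P R σ) ∧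
    (∀ (ℓ : ℕ → ℕ) (P : ∀ n, Zero.LOPC (ℓ n) (dA ^ n) (dB ^ n)) (e : ℕ → ℕ)
      (R : ∀ n, Matrix (Fin (dA ^ n) × Fin (dB ^ n)) (Fin (e n)) ℂ)
      (σ : ∀ n, Matrix ((P n).Transcript × Fin (e n)) ((P n).Transcript × Fin (e n)) ℂ),
      (∀ n, R n * (R n)ᴴ = Zero.copies ρ n) → (∀ n, Zero.State (σ n)) →
      Tendsto (fun n => Zero.error (P n) (R n) (σ n)) atTop (nhds 0) →
      ∀ᶠ n in atTop, ℓ n = 0) := by
  obtain ⟨K, hK⟩ := exists_kraus hJ
  obtain ⟨L, hL⟩ := exists_kraus hJt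
  obtain ⟨K', hK'⟩ := exists_kraus hJ'
  obtain ⟨L', hL'⟩ := exists_kraus hJt'
  have main : ∀ n ℓ : ℕ, 1 ≤ ℓ → ∀ (P : Zero.LOPC ℓ (dA ^ n) (dB ^ n)) (e : ℕ)
      (R : Matrix (Fin (dA ^ n) × Fin (dB ^ n)) (Fin e) ℂ), R * Rᴴ = Zero.copies ρ n →
      ∀ σ, Zero.State σ → 1 / 2 ≤ Zero.error P R σ := by
    intro n ℓ hℓ P e R hR σ hσ
    refine Zero.error_ge hℓ P (powFin eA K n) (powFin eB K' n)
      (fun j => powFin eA L n ((Fintype.equivFin (Fin n → α × γ)).symm j))
      (fun j => powFin eB L' n ((Fintype.equivFin (Fin n → β × γ)).symm j)) ?_ ?_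
      (τ := omegaOp (Fin n → γ) ((c : ℂ) ^ n))
      (omegaOp_psd _ (pow_nonneg (by exact_mod_cast hc) n)) R ?_ σ hσ
    · intro i p i' q
      rw [coef_equiv, coef_powFin, coef_powFin]
      exact prod_congr rfl fun k _ => by rw [hK, hL]; rfl
    · intro i p i' q
      rw [coef_equiv, coef_powFin, coef_powFin]
      exact prod_congr rfl fun k _ => by rw [hK', hL']; rfl
    · rw [hR]
      ext x y
      simp only [channel_omega, coef_powFin, hK, hK', ← prod_mul_distrib, Zero.copies, hρ,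
        Matrix.submatrix_apply, Matrix.smul_apply, smul_eq_mul, linkOp, Matrix.of_apply,
        Equiv.prodCongr_apply, Prod.map_apply]
      rw [prod_mul_distrib, prod_const, card_univ, Fintype.card_fin]
      congr 1
      rw [Fintype.prod_sum]
      exact sum_congr rfl fun p _ => by rw [Fintype.prod_sum]
  refine ⟨main, fun ℓ P e R σ hR hσ hlim => ?_⟩
  filter_upwards [hlim.eventually (gt_mem_nhds (show (0 : ℝ) < 1 / 2 by norm_num))] with n hn
  by_contra h
  exact absurd (main n (ℓ n) (Nat.one_le_iff_ne_zero.2 h) (P n) (e n) (R n) (hR n) (σ n) (hσ n))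
    (not_le.2 hn)

end Vale.Agent.P372.Full
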