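import Vale.Agent.P372.Full.Defs
import Vale.Agent.P372.Protocol

/-!
Running the instruments of a protocol on the purified state gives its final state.
-/

open Matrix Finset
open scoped ComplexOrder Kronecker

namespace Vale.Agent.P372.Zero

open Vale.Agent.P372.Lopc (ptr kron_one_mul ptr_sum_conj adj_kron_left adj_kron_right pureState)
open Vale.Agent.P372.Link (adj)

variable {ℓ : ℕ} {γ : Type} [Fintype γ] [DecidableEq γ]

/-- The eavesdropper's unnormalised state obtained by applying the announced operations one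
after another to the state `ω` of Alice, Bob and the eavesdropper, then measuring the keys and
tracing out the systems of Alice and Bob. -/
noncomputable def LOPC.run : {a b : ℕ} → (P : LOPC ℓ a b) →
    Matrix ((Fin a × Fin b) × γ) ((Fin a × Fin b) × γ) ℂ →
    P.Transcript → (Fin ℓ → Bool) → (Fin ℓ → Bool) → Matrix γ γ ℂ
  | _, _, .done A B _ _, ω, _, z, z' => ptr (((A z ⊗ₖ B z') ⊗ₖ (1 : Matrix γ γ ℂ)) * ω)
  | _, b, .alice c _ _ M _ next, ω, t, z, z' =>
      let t' : (i : Fin c) × (next i).Transcript := t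
      LOPC.run (next t'.1) (∑ j, ((M t'.1 j ⊗ₖ (1 : Matrix (Fin b) (Fin b) ℂ)) ⊗ₖ
        (1 : Matrix γ γ ℂ)) * ω * ((M t'.1 j ⊗ₖ (1 : Matrix (Fin b) (Fin b) ℂ)) ⊗ₖ
        (1 : Matrix γ γ ℂ))ᴴ) t'.2 z z'
  | a, _, .bob c _ _ M _ next, ω, t, z, z' =>
      let t' : (i : Fin c) × (next i).Transcript := t
      LOPC.run (next t'.1) (∑ j, (((1 : Matrix (Fin a) (Fin a) ℂ) ⊗ₖ M t'.1 j) ⊗ₖ
        (1 : Matrix γ γ ℂ)) * ω * (((1 : Matrix (Fin a) (Fin a) ℂ) ⊗ₖ M t'.1 j) ⊗ₖ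
        (1 : Matrix γ γ ℂ))ᴴ) t'.2 z z'

lemma LOPC.run_eq : ∀ {a b : ℕ} (P : LOPC ℓ a b)
    (ω : Matrix ((Fin a × Fin b) × γ) ((Fin a × Fin b) × γ) ℂ) (t : P.Transcript)
    (z z' : Fin ℓ → Bool),
    P.run ω t z z' = ptr (((P.effA t z ⊗ₖ P.effB t z') ⊗ₖ (1 : Matrix γ γ ℂ)) * ω)
  | _, _, .done _ _ _ _, _, _, _, _ => rfl
  | _, b, .alice c _ _ M _ next, ω, t, z, z' => by
      let t' : (i : Fin c) × (next i).Transcript := t
      have h := LOPC.run_eq (next t'.1) (∑ j, ((M t'.1 j ⊗ₖ (1 : Matrix (Fin b) (Fin b) ℂ)) ⊗ₖ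
        (1 : Matrix γ γ ℂ)) * ω * ((M t'.1 j ⊗ₖ (1 : Matrix (Fin b) (Fin b) ℂ)) ⊗ₖ
        (1 : Matrix γ γ ℂ))ᴴ) t'.2 z z'
      rw [ptr_sum_conj, adj_kron_left] at h
      exact h
  | a, _, .bob c _ _ M _ next, ω, t, z, z' => by
      let t' : (i : Fin c) × (next i).Transcript := t
      have h := LOPC.run_eq (next t'.1) (∑ j, (((1 : Matrix (Fin a) (Fin a) ℂ) ⊗ₖ M t'.1 j) ⊗ₖ
        (1 : Matrix γ γ ℂ)) * ω * (((1 : Matrix (Fin a) (Fin a) ℂ) ⊗ₖ M t'.1 j) ⊗ₖ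
        (1 : Matrix γ γ ℂ))ᴴ) t'.2 z z'
      rw [ptr_sum_conj, adj_kron_right] at h
      exact h

/-- The blocks of the final state are what running the protocol on the purification produces. -/
theorem LOPC.finalState_eq_run {a b : ℕ} (P : LOPC ℓ a b) (R : Matrix (Fin a × Fin b) γ ℂ)
    (x y : (Fin ℓ → Bool) × (Fin ℓ → Bool) × P.Transcript × γ) :
    P.finalState R x y = open Classical in
      if x.1 = y.1 ∧ x.2.1 = y.2.1 ∧ x.2.2.1 = y.2.2.1
      then P.run (pureState R) x.2.2.1 x.1 x.2.1 x.2.2.2 y.2.2.2 else 0 := by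
  classical
  simp only [LOPC.finalState, LOPC.run_eq]
  refine if_congr Iff.rfl ?_ rfl
  simp only [ptr, kron_one_mul]
  simp only [pureState, Matrix.mul_apply, conjTranspose_apply, LOPC.effect,
    Matrix.kroneckerMap_apply, sum_mul]
  rw [sum_comm]
  refine sum_congr rfl fun p _ => sum_congr rfl fun q _ => ?_
  ring

end Vale.Agent.P372.Zero
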