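import Vale.Agent.P372.Full.Defs

/-!
Sanity of the definitions in `Full/Defs.lean`: the final state of a protocol on a purified state is
a state, the ideal state is a state, protocols without key bits have error `0`, and a maximally
entangled pair gives one bit of key with error `0`.
-/

open Matrix Finset
open scoped ComplexOrder Kronecker

namespace Vale.Agent.P372.Zero

namespace LOPC

variable {ℓ : ℕ}

theorem effA_psd : ∀ {a b : ℕ} (P : LOPC ℓ a b) (t : P.Transcript) (z : Fin ℓ → Bool),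
    (P.effA t z).PosSemidef := by
  intro a b P
  induction P with
  | done A B hA hB => exact fun _ z => hA.1 z
  | alice c out r M hM next ih =>
    exact fun t z => posSemidef_sum _ fun j _ => (ih t.1 t.2 z).conjTranspose_mul_mul_same _
  | bob c out r M hM next ih => exact fun t z => ih t.1 t.2 z

theorem effB_psd : ∀ {a b : ℕ} (P : LOPC ℓ a b) (t : P.Transcript) (z : Fin ℓ → Bool),
    (P.effB t z).PosSemidef := by
  intro a b P
  induction P with
  | done A B hA hB => exact fun _ z => hB.1 z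
  | alice c out r M hM next ih => exact fun t z => ih t.1 t.2 z
  | bob c out r M hM next ih =>
    exact fun t z => posSemidef_sum _ fun j _ => (ih t.1 t.2 z).conjTranspose_mul_mul_same _

theorem effect_eq {a b : ℕ} (P : LOPC ℓ a b) (z z' : Fin ℓ → Bool) (t : P.Transcript) :
    P.effect z z' t = P.effA t z ⊗ₖ P.effB t z' := rfl

theorem effect_psd {a b : ℕ} (P : LOPC ℓ a b) (z z' : Fin ℓ → Bool) (t : P.Transcript) :
    (P.effect z z' t).PosSemidef :=
  (effA_psd P t z).kronecker (effB_psd P t z')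

theorem sum_kronecker {l m n p ι : Type} (s : Finset ι) (F : ι → Matrix l m ℂ)
    (B : Matrix n p ℂ) : (∑ i ∈ s, F i) ⊗ₖ B = ∑ i ∈ s, F i ⊗ₖ B := by
  ext x y; simp [Matrix.sum_apply, Finset.sum_mul]

theorem kronecker_sum {l m n p ι : Type} (s : Finset ι) (B : Matrix l m ℂ)
    (F : ι → Matrix n p ℂ) : B ⊗ₖ (∑ i ∈ s, F i) = ∑ i ∈ s, B ⊗ₖ F i := by
  ext x y; simp [Matrix.sum_apply, Finset.mul_sum]

/-- One round: an instrument applied to the first factor. -/
theorem round_left {a b c : ℕ} {o r : Fin c → ℕ}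
    (M : (i : Fin c) → Fin (r i) → Matrix (Fin (o i)) (Fin a) ℂ)
    (hM : ∑ i, ∑ j, (M i j)ᴴ * M i j = 1) {τ : Fin c → Type} [∀ i, Fintype (τ i)]
    (X : ∀ i, τ i → (Fin ℓ → Bool) → Matrix (Fin (o i)) (Fin (o i)) ℂ)
    (Y : ∀ i, τ i → (Fin ℓ → Bool) → Matrix (Fin b) (Fin b) ℂ)
    (h : ∀ i, ∑ t, (∑ z, X i t z) ⊗ₖ (∑ z, Y i t z) = 1) :
    ∑ i, ∑ t, (∑ z, ∑ j, (M i j)ᴴ * X i t z * M i j) ⊗ₖ (∑ z, Y i t z) = 1 := by
  let I : Matrix (Fin b) (Fin b) ℂ := 1
  have e : ∀ i (j : Fin (r i)), ((M i j)ᴴ * M i j) ⊗ₖ I =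
      ∑ t, ((M i j)ᴴ * (∑ z, X i t z) * M i j) ⊗ₖ (∑ z, Y i t z) := by
    intro i j
    calc ((M i j)ᴴ * M i j) ⊗ₖ I
        = ((M i j)ᴴ ⊗ₖ I) * (M i j ⊗ₖ I) := by rw [← Matrix.mul_kronecker_mul, Matrix.one_mul]
      _ = ((M i j)ᴴ ⊗ₖ I) * (∑ t, (∑ z, X i t z) ⊗ₖ (∑ z, Y i t z)) * (M i j ⊗ₖ I) := by
          rw [h i, Matrix.mul_one]
      _ = _ := by
          simp only [Matrix.mul_sum, Matrix.sum_mul, I, ← Matrix.mul_kronecker_mul, Matrix.one_mul,
            Matrix.mul_one]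
  calc _ = ∑ i, ∑ t, ∑ j, ((M i j)ᴴ * (∑ z, X i t z) * M i j) ⊗ₖ (∑ z, Y i t z) := by
        refine sum_congr rfl fun i _ => sum_congr rfl fun t _ => ?_
        rw [← sum_kronecker, Finset.sum_comm]
        simp only [Matrix.mul_sum, Matrix.sum_mul]
    _ = ∑ i, ∑ j, ((M i j)ᴴ * M i j) ⊗ₖ I := by
        refine sum_congr rfl fun i _ => ?_
        rw [Finset.sum_comm]
        exact sum_congr rfl fun j _ => (e i j).symm
    _ = 1 := by
        simp only [← sum_kronecker, hM]
        exact Matrix.one_kronecker_one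

/-- One round: an instrument applied to the second factor. -/
theorem round_right {a b c : ℕ} {o r : Fin c → ℕ}
    (M : (i : Fin c) → Fin (r i) → Matrix (Fin (o i)) (Fin b) ℂ)
    (hM : ∑ i, ∑ j, (M i j)ᴴ * M i j = 1) {τ : Fin c → Type} [∀ i, Fintype (τ i)]
    (X : ∀ i, τ i → (Fin ℓ → Bool) → Matrix (Fin a) (Fin a) ℂ)
    (Y : ∀ i, τ i → (Fin ℓ → Bool) → Matrix (Fin (o i)) (Fin (o i)) ℂ)
    (h : ∀ i, ∑ t, (∑ z, X i t z) ⊗ₖ (∑ z, Y i t z) = 1) :
    ∑ i, ∑ t, (∑ z, X i t z) ⊗ₖ (∑ z, ∑ j, (M i j)ᴴ * Y i t z * M i j) = 1 := by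
  let I : Matrix (Fin a) (Fin a) ℂ := 1
  have e : ∀ i (j : Fin (r i)), I ⊗ₖ ((M i j)ᴴ * M i j) =
      ∑ t, (∑ z, X i t z) ⊗ₖ ((M i j)ᴴ * (∑ z, Y i t z) * M i j) := by
    intro i j
    calc I ⊗ₖ ((M i j)ᴴ * M i j)
        = (I ⊗ₖ (M i j)ᴴ) * (I ⊗ₖ M i j) := by rw [← Matrix.mul_kronecker_mul, Matrix.one_mul]
      _ = (I ⊗ₖ (M i j)ᴴ) * (∑ t, (∑ z, X i t z) ⊗ₖ (∑ z, Y i t z)) * (I ⊗ₖ M i j) := by
          rw [h i, Matrix.mul_one]
      _ = _ := by
          simp only [Matrix.mul_sum, Matrix.sum_mul, I, ← Matrix.mul_kronecker_mul, Matrix.one_mul,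
            Matrix.mul_one]
  calc _ = ∑ i, ∑ t, ∑ j, (∑ z, X i t z) ⊗ₖ ((M i j)ᴴ * (∑ z, Y i t z) * M i j) := by
        refine sum_congr rfl fun i _ => sum_congr rfl fun t _ => ?_
        rw [← kronecker_sum, Finset.sum_comm]
        simp only [Matrix.mul_sum, Matrix.sum_mul]
    _ = ∑ i, ∑ j, I ⊗ₖ ((M i j)ᴴ * M i j) := by
        refine sum_congr rfl fun i _ => ?_
        rw [Finset.sum_comm]
        exact sum_congr rfl fun j _ => (e i j).symm
    _ = 1 := by
        simp only [← kronecker_sum, hM]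
        exact Matrix.one_kronecker_one

/-- The effects of all transcripts and keys sum to the identity. -/
theorem sum_effect : ∀ {a b : ℕ} (P : LOPC ℓ a b),
    ∑ t, (∑ z, P.effA t z) ⊗ₖ (∑ z, P.effB t z) = 1 := by
  intro a b P
  induction P with
  | done A B hA hB =>
    show ∑ _t : Unit, (∑ z, A z) ⊗ₖ (∑ z, B z) = 1
    simp [hA.2, hB.2]
  | @alice a b c out r M hM next ih =>
    refine Eq.trans (Fintype.sum_sigma _) ?_
    exact round_left M hM (fun i => (next i).effA) (fun i => (next i).effB) ih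
  | @bob a b c out r M hM next ih =>
    refine Eq.trans (Fintype.sum_sigma _) ?_
    exact round_right M hM (fun i => (next i).effA) (fun i => (next i).effB) ih

theorem sum_effect' {a b : ℕ} (P : LOPC ℓ a b) : ∑ z, ∑ z', ∑ t, P.effect z z' t = 1 := by
  rw [← sum_effect P]
  simp only [sum_kronecker, kronecker_sum, effect_eq]
  refine Eq.trans (sum_congr rfl fun z _ => sum_comm) ?_
  rw [sum_comm]
  exact sum_congr rfl fun t _ => sum_comm

/-- The final state of a protocol is a density matrix. -/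
theorem finalState_state {a b : ℕ} (P : LOPC ℓ a b) {γ : Type} [Fintype γ]
    (R : Matrix (Fin a × Fin b) γ ℂ) (hR : (R * Rᴴ).trace = 1) :
    State (P.finalState R) := by
  classical
  refine ⟨?_, ?_⟩
  · let E : (Fin ℓ → Bool) × (Fin ℓ → Bool) × P.Transcript →
        Matrix ((Fin ℓ → Bool) × (Fin ℓ → Bool) × P.Transcript × γ) γ ℂ :=
      fun k => Matrix.of fun x e => if (x.1, x.2.1, x.2.2.1) = k ∧ x.2.2.2 = e then 1 else 0
    have e : P.finalState R =
        ∑ k, E k * (Rᴴ * P.effect k.1 k.2.1 k.2.2 * R)ᵀ * (E k)ᴴ := by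
      ext x y
      obtain ⟨x1, x2, x3, xe⟩ := x
      obtain ⟨y1, y2, y3, ye⟩ := y
      rw [Matrix.sum_apply, Finset.sum_eq_single (x1, x2, x3)]
      · by_cases hk : x1 = y1 ∧ x2 = y2 ∧ x3 = y3
        · obtain ⟨rfl, rfl, rfl⟩ := hk
          simp [finalState, E, Matrix.mul_apply, Finset.sum_mul, mul_comm,
            mul_left_comm]
        · simp [finalState, E, Matrix.mul_apply, hk, eq_comm (a := y1), eq_comm (a := y2),
            eq_comm (a := y3)]
      · intro k _ hk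
        simp [E, Matrix.mul_apply, Ne.symm hk]
      · simp
    rw [e]
    exact posSemidef_sum _ fun k _ =>
      ((effect_psd P _ _ _).conjTranspose_mul_mul_same R).transpose.mul_mul_conjTranspose_same _
  · have e : (P.finalState R).trace =
        ∑ z, ∑ z', ∑ t, (Rᴴ * P.effect z z' t * R).trace := by
      simp [Matrix.trace, finalState, Fintype.sum_prod_type]
    rw [e]
    simp only [← trace_sum, ← Matrix.sum_mul, ← Matrix.mul_sum, sum_effect', Matrix.mul_one]
    rwa [trace_mul_comm]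

theorem trace_idealState {ε : Type} [Fintype ε] (σ : Matrix ε ε ℂ) (hσ : σ.trace = 1) :
    (idealState ℓ σ).trace = 1 := by
  have h : ∀ z : Fin ℓ → Bool, ∑ z' : Fin ℓ → Bool, ∑ e, idealState ℓ σ (z, z', e) (z, z', e) =
      ((2 : ℂ) ^ ℓ)⁻¹ := by
    intro z
    rw [Finset.sum_eq_single z]
    · simp only [idealState, and_self, if_true, ← Finset.mul_sum]
      rw [show ∑ e, σ e e = 1 from hσ, mul_one]
    · intro z' _ hz
      simp [idealState, Ne.symm hz]
    · simp
  simp only [Matrix.trace, Matrix.diag, Fintype.sum_prod_type] at h ⊢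
  simp [h]

end LOPC

theorem traceNorm_zero {ι : Type} [Fintype ι] : traceNorm (0 : Matrix ι ι ℂ) = 0 := by
  classical
  refine Finset.sum_eq_zero fun i _ => Real.sqrt_eq_zero'.2 (le_of_eq ?_)
  have h : (Matrix.posSemidef_conjTranspose_mul_self (0 : Matrix ι ι ℂ)).1.eigenvalues = 0 :=
    ((Matrix.posSemidef_conjTranspose_mul_self (0 : Matrix ι ι ℂ)).1.eigenvalues_eq_zero_iff).2
      (by simp)
  exact congrFun h i

theorem error_nonneg {ℓ a b : ℕ} (P : LOPC ℓ a b) {γ : Type} [Fintype γ]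
    (R : Matrix (Fin a × Fin b) γ ℂ) (σ : Matrix (P.Transcript × γ) (P.Transcript × γ) ℂ) :
    0 ≤ error P R σ :=
  Finset.sum_nonneg fun _ _ => Real.sqrt_nonneg _

/-- Without key bits the error is zero: Eve's ideal state is her actual one. -/
theorem exists_error_zero {a b : ℕ} (P : LOPC 0 a b) {γ : Type} [Fintype γ]
    (R : Matrix (Fin a × Fin b) γ ℂ) (hR : (R * Rᴴ).trace = 1) :
    ∃ σ, State σ ∧ error P R σ = 0 := by
  let z₀ : Fin 0 → Bool := default
  let σ : Matrix (P.Transcript × γ) (P.Transcript × γ) ℂ :=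
    (P.finalState R).submatrix (fun e => (z₀, z₀, e)) (fun e => (z₀, z₀, e))
  have e : P.finalState R = LOPC.idealState 0 σ := by
    ext ⟨x1, x2, x⟩ ⟨y1, y2, y⟩
    simp [LOPC.idealState, σ, Subsingleton.elim x1 z₀, Subsingleton.elim x2 z₀,
      Subsingleton.elim y1 z₀, Subsingleton.elim y2 z₀]
  obtain ⟨hp, ht⟩ := LOPC.finalState_state P R hR
  refine ⟨σ, ⟨hp.submatrix _, ?_⟩, ?_⟩
  · rw [← ht]
    simp only [Matrix.trace, Matrix.diag, σ, Matrix.submatrix_apply, Fintype.sum_prod_type,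
      Fintype.sum_unique]
    refine Finset.sum_congr rfl fun t _ => Finset.sum_congr rfl fun e _ => ?_
    congr 1 <;> exact Prod.ext (Subsingleton.elim _ _) (Prod.ext (Subsingleton.elim _ _) rfl)
  · rw [error, ← e, sub_self, traceNorm_zero]

/-- A protocol without key bits exists for all local dimensions. -/
theorem exists_protocol (a b : ℕ) : Nonempty (LOPC 0 a b) :=
  ⟨.done (fun _ => 1) (fun _ => 1) ⟨fun _ => PosSemidef.one, by simp⟩
    ⟨fun _ => PosSemidef.one, by simp⟩⟩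

/-- A maximally entangled pair of qubits gives one bit of key with error zero. -/
theorem maxEntangled_key : ∃ (R : Matrix (Fin 2 × Fin 2) (Fin 1) ℂ) (P : LOPC 1 2 2)
    (σ : Matrix (P.Transcript × Fin 1) (P.Transcript × Fin 1) ℂ),
    State (R * Rᴴ) ∧ State σ ∧ error P R σ = 0 := by
  classical
  let bit : (Fin 1 → Bool) → Fin 2 := fun z => if z 0 then 1 else 0
  let A : (Fin 1 → Bool) → Matrix (Fin 2) (Fin 2) ℂ := fun z =>
    diagonal fun i => if i = bit z then 1 else 0
  have hA : (∀ z, (A z).PosSemidef) ∧ ∑ z, A z = 1 := by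
    refine ⟨fun z => PosSemidef.diagonal fun i => ?_, ?_⟩
    · by_cases h : i = bit z <;> simp [h]
    · ext i j
      rw [Matrix.sum_apply, ← (Equiv.funUnique (Fin 1) Bool).symm.sum_comp]
      fin_cases i <;> fin_cases j <;> simp [A, bit]
  obtain ⟨c, hh⟩ : ∃ c : ℝ, (c : ℂ) * c = 1 / 2 := ⟨√(1 / 2), by
    rw [← Complex.ofReal_mul, Real.mul_self_sqrt (by norm_num)]; norm_num⟩
  let R : Matrix (Fin 2 × Fin 2) (Fin 1) ℂ :=
    Matrix.of fun x _ => if x.1 = x.2 then (c : ℂ) else 0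
  let P : LOPC 1 2 2 := .done A A hA hA
  let σ : Matrix (P.Transcript × Fin 1) (P.Transcript × Fin 1) ℂ := Matrix.of fun _ _ => 1
  have hσ : State σ := by
    refine ⟨?_, ?_⟩
    · have h := posSemidef_self_mul_conjTranspose
        (Matrix.of fun (_ : P.Transcript × Fin 1) (_ : Fin 1) => (1 : ℂ))
      refine (congrArg Matrix.PosSemidef ?_).mp h
      ext x y; simp [σ, Matrix.mul_apply]
    · show ∑ _x : Unit × Fin 1, (1 : ℂ) = 1
      simp
  refine ⟨R, P, σ, ⟨posSemidef_self_mul_conjTranspose R, ?_⟩, hσ, ?_⟩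
  · simp only [Matrix.trace, Matrix.diag, Matrix.mul_apply, conjTranspose_apply,
      Fintype.sum_prod_type, Fin.sum_univ_two, Fin.sum_univ_one, R]
    norm_num [Complex.conj_ofReal, hh]
  · rw [error]
    have e : P.finalState R = LOPC.idealState 1 σ := by
      ext ⟨x1, x2, xt, xe⟩ ⟨y1, y2, yt, ye⟩
      have hx : x1 = fun _ => x1 0 := funext fun i => by rw [Fin.fin_one_eq_zero i]
      have hx' : x2 = fun _ => x2 0 := funext fun i => by rw [Fin.fin_one_eq_zero i]
      have hy : y1 = fun _ => y1 0 := funext fun i => by rw [Fin.fin_one_eq_zero i]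
      have hy' : y2 = fun _ => y2 0 := funext fun i => by rw [Fin.fin_one_eq_zero i]
      have ht : xt = yt := rfl
      rw [hx, hx', hy, hy']
      cases x1 0 <;> cases x2 0 <;> cases y1 0 <;> cases y2 0 <;>
        simp [LOPC.finalState, LOPC.idealState, LOPC.effect, LOPC.effA, LOPC.effB, P, A, R, σ,
          bit, ht, Matrix.mul_apply, Fintype.sum_prod_type, Fin.sum_univ_two, funext_iff, hh,
          Complex.conj_ofReal]
    rw [e, sub_self, traceNorm_zero]

end Vale.Agent.P372.Zero
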