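import Vale.Agent.P372.Full.Tags

/-!
The two maps with positive partial transpose, as Choi matrices on many sites and tags.
-/

open Matrix Finset
open scoped ComplexOrder

namespace Vale.Agent.P372.Full

open Vale.Agent.Results.P372.IndividualMeasurements
open Vale.Agent.P372.Link

abbrev Pair (d : ℕ) := Fin d × Fin d
abbrev Sites (l d : ℕ) := (Fin l → Fin d) × (Fin l → Fin d)
abbrev Sys (l d : ℕ) := (Fin l → Fin d) × Tag l

variable {d m l : ℕ}

/-- Sum of `(U ⊗ Uᵀ) F`. -/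
def nOp (U : Fin m → Fin d → Fin d → ℝ) : Matrix (Pair d) (Pair d) ℂ :=
  Matrix.of fun x y => ((∑ k, U k x.1 y.2 * U k y.1 x.2 : ℝ) : ℂ)

/-- Sum of `|U⟩⟨U|`. -/
def vecOp (U : Fin m → Fin d → Fin d → ℝ) : Matrix (Pair d) (Pair d) ℂ :=
  Matrix.of fun x y => ((∑ k, U k x.1 x.2 * U k y.1 y.2 : ℝ) : ℂ)

/-- Partial transposition on the second factor. -/
def ptr {α γ : Type} (M : Matrix (α × γ) (α × γ) ℂ) : Matrix (α × γ) (α × γ) ℂ :=
  Matrix.of fun x y => M (x.1, y.2) (y.1, x.2)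

/-- The identity family. -/
def idFam (d : ℕ) : Fin 1 → Fin d → Fin d → ℝ := fun _ i j => if i = j then 1 else 0

lemma ptr_nOp (U : Fin m → Fin d → Fin d → ℝ) : ptr (nOp U) = vecOp U := by
  ext x y
  simp [ptr, nOp, vecOp]

lemma ptr_one {α γ : Type} [DecidableEq α] [DecidableEq γ] :
    ptr (1 : Matrix (α × γ) (α × γ) ℂ) = 1 := by
  ext ⟨a, c⟩ ⟨a', c'⟩
  simp only [ptr, Matrix.of_apply, Matrix.one_apply, Prod.mk.injEq]
  congr 1
  exact propext ⟨fun h => ⟨h.1, h.2.symm⟩, fun h => ⟨h.1, h.2.symm⟩⟩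

lemma vecOp_psd (U : Fin m → Fin d → Fin d → ℝ) : (vecOp U).PosSemidef := by
  have e : vecOp U = (Matrix.of fun (k : Fin m) (x : Pair d) => ((U k x.1 x.2 : ℝ) : ℂ))ᴴ *
      (Matrix.of fun (k : Fin m) (x : Pair d) => ((U k x.1 x.2 : ℝ) : ℂ)) := by
    ext x y
    simp [vecOp, Matrix.mul_apply]
  rw [e]
  exact Matrix.posSemidef_conjTranspose_mul_self _

/-- One plus a small multiple is positive. -/
lemma one_add_smul_psd {ι : Type} [Fintype ι] [DecidableEq ι] {N : Matrix ι ι ℂ} {K c : ℝ}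
    (hK : 0 ≤ K) (h1 : ((K : ℂ) • (1 : Matrix ι ι ℂ) + N).PosSemidef)
    (h2 : ((K : ℂ) • (1 : Matrix ι ι ℂ) - N).PosSemidef) (hc : |c| * K ≤ 1) :
    (1 + (c : ℂ) • N).PosSemidef := by
  have hs : (0:ℂ) ≤ ((1 - |c| * K : ℝ) : ℂ) := by exact_mod_cast (by linarith : (0:ℝ) ≤ 1 - |c| * K)
  have hc' : (0:ℂ) ≤ ((|c| : ℝ) : ℂ) := by exact_mod_cast abs_nonneg c
  rcases le_total 0 c with h | h
  · refine (congrArg Matrix.PosSemidef ?_).mp ((PosSemidef.one.smul hs).add (h1.smul hc'))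
    rw [abs_of_nonneg h]; push_cast; module
  · refine (congrArg Matrix.PosSemidef ?_).mp ((PosSemidef.one.smul hs).add (h2.smul hc'))
    rw [abs_of_nonpos h]; push_cast; module

lemma idFam_bound : (((1:ℝ) : ℂ) • (1 : Matrix (Pair d) (Pair d) ℂ) + nOp (idFam d)).PosSemidef ∧
    (((1:ℝ) : ℂ) • (1 : Matrix (Pair d) (Pair d) ℂ) - nOp (idFam d)).PosSemidef := by
  set F := nOp (idFam d)
  have hF : ∀ x y, F x y = if x.swap = y then 1 else 0 := by
    intro x y
    obtain ⟨a, c⟩ := x; obtain ⟨a', c'⟩ := y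
    simp only [F, nOp, idFam, Matrix.of_apply, univ_unique, sum_singleton, Prod.swap_prod_mk,
      Prod.mk.injEq]
    by_cases h1 : a = c' <;> by_cases h2 : a' = c <;> simp [h1, h2, Ne.symm]
  have hFh : Fᴴ = F := by
    ext x y
    rw [conjTranspose_apply, hF, hF]
    by_cases h : x.swap = y
    · simp [← h]
    · rw [if_neg h, if_neg]
      · simp
      · intro h'; exact h (by rw [← h']; simp)
  have hFF : F * F = 1 := by
    ext x y
    rw [Matrix.mul_apply, Finset.sum_eq_single x.swap]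
    · simp [hF, Matrix.one_apply]
    · intro z _ hz; simp [hF, Ne.symm hz]
    · simp
  have h2 : (0:ℂ) ≤ ((1/2 : ℝ) : ℂ) := by exact_mod_cast (by norm_num : (0:ℝ) ≤ 1/2)
  constructor
  · refine (congrArg Matrix.PosSemidef ?_).mp
      ((Matrix.posSemidef_conjTranspose_mul_self (1 + F)).smul h2)
    rw [conjTranspose_add, conjTranspose_one, hFh, add_mul, mul_add, mul_add, hFF, Matrix.one_mul,
      Matrix.mul_one, Matrix.one_mul]
    push_cast; module
  · refine (congrArg Matrix.PosSemidef ?_).mp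
      ((Matrix.posSemidef_conjTranspose_mul_self (1 - F)).smul h2)
    rw [conjTranspose_sub, conjTranspose_one, hFh, sub_mul, mul_sub, mul_sub, hFF, Matrix.one_mul,
      Matrix.mul_one, Matrix.one_mul]
    push_cast; module

/-- `B` on the sites in `S`, `A` elsewhere. -/
def fam (S : Finset (Fin l)) (A B : Matrix (Pair d) (Pair d) ℂ) :
    Matrix (Sites l d) (Sites l d) ℂ :=
  tfam fun i => if i ∈ S then B else A

lemma sum_fam (c : Fin l → ℂ) (A B : Matrix (Pair d) (Pair d) ℂ) :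
    ∑ S : Finset (Fin l), (∏ i ∈ S, c i) • fam S A B = tfam fun i => A + c i • B := by
  classical
  ext x y
  have h := (Finset.prod_add (fun i => c i * B (x.1 i, x.2 i) (y.1 i, y.2 i))
    (fun i => A (x.1 i, x.2 i) (y.1 i, y.2 i)) (univ : Finset (Fin l))).symm
  rw [Finset.powerset_univ] at h
  simp only [Matrix.sum_apply, Matrix.smul_apply, smul_eq_mul, fam, tfam]
  calc _ = ∑ S : Finset (Fin l), (∏ i ∈ S, c i * B (x.1 i, x.2 i) (y.1 i, y.2 i)) *
        ∏ i ∈ univ \ S, A (x.1 i, x.2 i) (y.1 i, y.2 i) := by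
        refine sum_congr rfl fun S _ => ?_
        rw [← prod_sdiff (subset_univ S), prod_mul_distrib]
        have e1 : ∏ i ∈ univ \ S, (if i ∈ S then B else A) (x.1 i, x.2 i) (y.1 i, y.2 i) =
            ∏ i ∈ univ \ S, A (x.1 i, x.2 i) (y.1 i, y.2 i) :=
          prod_congr rfl fun i hi => by rw [if_neg (mem_sdiff.1 hi).2]
        have e2 : ∏ i ∈ S, (if i ∈ S then B else A) (x.1 i, x.2 i) (y.1 i, y.2 i) =
            ∏ i ∈ S, B (x.1 i, x.2 i) (y.1 i, y.2 i) :=
          prod_congr rfl fun i hi => by rw [if_pos hi]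
        rw [e1, e2]; ring
    _ = _ := by
        rw [h]
        exact prod_congr rfl fun i _ => by simp; ring

lemma ptr_fam (S : Finset (Fin l)) (A B : Matrix (Pair d) (Pair d) ℂ) :
    ptr (fam S A B) = fam S (ptr A) (ptr B) := by
  ext x y
  simp only [ptr, fam, tfam, Matrix.of_apply]
  refine prod_congr rfl fun i _ => ?_
  split_ifs <;> rfl

/-- The coefficient of a tag product. -/
noncomputable def coefS (S : Finset (Fin l)) (A B R : Matrix (Pair d) (Pair d) ℂ) :
    Matrix (Sites l d) (Sites l d) ℂ :=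
  fam S A B + if S = ∅ then (Real.sqrt 2 : ℂ) • tfam (fun _ => R) else 0

/-- The Choi matrix. -/
noncomputable def choi (l : ℕ) (A B R : Matrix (Pair d) (Pair d) ℂ) :
    Matrix (Sys l d × Sys l d) (Sys l d × Sys l d) ℂ :=
  (∑ S : Finset (Fin l), prodOp (coefS S A B R) (eta S)).submatrix
    (Equiv.prodProdProdComm _ _ _ _) (Equiv.prodProdProdComm _ _ _ _)

lemma sum_coefS (σ : Finset (Fin l) → ℂ) (hσ : σ ∅ = 1) (A B R : Matrix (Pair d) (Pair d) ℂ) :
    ∑ S, σ S • coefS S A B R =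
      (∑ S, σ S • fam S A B) + (Real.sqrt 2 : ℂ) • tfam (fun _ : Fin l => R) := by
  simp only [coefS, smul_add, sum_add_distrib]
  congr 1
  simp [smul_ite, hσ]

lemma choi_psd {A B R : Matrix (Pair d) (Pair d) ℂ} (hp : (A + B).PosSemidef)
    (hm : (A - B).PosSemidef) (hR : R.PosSemidef) : (choi l A B R).PosSemidef := by
  refine (tag_psd _ fun x => ?_).submatrix _
  rw [sum_coefS (chi x) (by simp [chi])]
  simp only [chi, sum_fam]
  refine (tfam_psd fun i => ?_).add ((tfam_psd fun _ => hR).smul ?_)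
  · cases x i
    · simpa using hp
    · simpa [← sub_eq_add_neg] using hm
  · exact_mod_cast Real.sqrt_nonneg 2

lemma ptr_choi (A B R : Matrix (Pair d) (Pair d) ℂ) :
    ptr (choi l A B R) =
      (∑ S : Finset (Fin l), prodOp ((tsign S : ℂ) • coefS S (ptr A) (ptr B) (ptr R)) (eta S)).submatrix
        (Equiv.prodProdProdComm _ _ _ _) (Equiv.prodProdProdComm _ _ _ _) := by
  ext ⟨⟨a, e⟩, ⟨c, f⟩⟩ ⟨⟨a', e'⟩, ⟨c', f'⟩⟩
  simp only [ptr, choi, Matrix.of_apply, Matrix.submatrix_apply, Equiv.prodProdProdComm_apply,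
    Matrix.sum_apply, prodOp, eta, Matrix.smul_apply, smul_eq_mul]
  refine sum_congr rfl fun S _ => ?_
  have h1 : gmat S f' f = (tsign S : ℂ) * gmat S f f' := by
    have := congrFun (congrFun (gmat_transpose S) f) f'
    simpa using this
  have h2 : coefS S A B R (a, c') (a', c) = coefS S (ptr A) (ptr B) (ptr R) (a, c) (a', c') := by
    simp only [coefS, Matrix.add_apply]
    congr 1
    · exact congrFun (congrFun (ptr_fam S A B) (a, c)) (a', c')
    · split_ifs
      · rfl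
      · rfl
  simp only [ptr] at h2 ⊢
  rw [h1, h2]; ring

lemma tfam_diag (V : Matrix (Pair d) (Pair d) ℂ) (g : Fin l → Pair d → ℂ) :
    tfam (fun i => V * diagonal (g i) * Vᴴ) =
      tfam (fun _ : Fin l => V) * diagonal (fun x : Sites l d => ∏ i, g i (x.1 i, x.2 i)) *
        (tfam fun _ : Fin l => V)ᴴ := by
  rw [← tfam_mul (fun i => V * diagonal (g i)) (fun _ => Vᴴ), ← tfam_mul (fun _ => V) (fun i => diagonal (g i)),
    tfam_conj]
  congr 2
  ext x y
  simp only [tfam, Matrix.diagonal_apply]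
  by_cases h : x = y
  · subst h; simp
  · rw [if_neg h]
    have : ∃ i, ¬ ((x.1 i, x.2 i) = (y.1 i, y.2 i)) := by
      by_contra hne
      push Not at hne
      exact h (Prod.ext (funext fun i => (Prod.ext_iff.1 (hne i)).1)
        (funext fun i => (Prod.ext_iff.1 (hne i)).2))
    obtain ⟨i, hi⟩ := this
    exact prod_eq_zero (mem_univ i) (if_neg hi)

lemma phase_bound (P : ℂ) (r : ℝ) (h : ‖P‖ ≤ r) :
    0 ≤ ((1 - Complex.I) * P).re + Real.sqrt 2 * r := by
  have hn : ‖(1 - Complex.I)‖ = Real.sqrt 2 := by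
    simp [Complex.norm_def, Complex.normSq_apply]; norm_num
  have h1 := (abs_le.1 (Complex.abs_re_le_norm ((1 - Complex.I) * P))).1
  rw [norm_mul, hn] at h1
  nlinarith [Real.sqrt_nonneg 2]

/-- The partial transpose is positive. -/
lemma choi_ptr_psd {N : Matrix (Pair d) (Pair d) ℂ} {a θ a' : ℝ} (ha : 0 ≤ a)
    (ha' : a' = a * (1 + θ ^ 2)) (hN : (ptr N).PosSemidef) :
    (ptr (choi l (1 + (a : ℂ) • N) (((a * θ : ℝ) : ℂ) • N) (1 + (a' : ℂ) • N))).PosSemidef := by
  rw [ptr_choi]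
  refine (tag_psd _ fun x => ?_).submatrix _
  set N' := ptr N with hN'
  have hA : ∀ c : ℂ, ptr (1 + c • N) = 1 + c • N' := by
    intro c
    ext p q
    have h1 := congrFun (congrFun (ptr_one (α := Fin d) (γ := Fin d)) p) q
    simp only [ptr, Matrix.of_apply] at h1
    simp only [ptr, hN', Matrix.of_apply, Matrix.add_apply, Matrix.smul_apply, h1]
  have hB : ∀ c : ℂ, ptr (c • N) = c • N' := fun c => by ext p q; simp [ptr, hN']
  rw [hA, hA, hB]
  simp only [smul_smul]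
  rw [sum_coefS (fun S => chi x S * (tsign S : ℂ)) (by simp [chi, tsign_empty])]
  set sg : Fin l → ℂ := fun i => if x i then -1 else 1 with hsg
  have hsum : ∑ S : Finset (Fin l), (chi x S * (tsign S : ℂ)) •
      fam S (1 + (a : ℂ) • N') (((a * θ : ℝ) : ℂ) • N') =
      ((1 - Complex.I) / 2) • tfam (fun i => (1 + (a : ℂ) • N') + (Complex.I * sg i) • (((a * θ : ℝ) : ℂ) • N')) +
      ((1 + Complex.I) / 2) • tfam (fun i => (1 + (a : ℂ) • N') + (-Complex.I * sg i) • (((a * θ : ℝ) : ℂ) • N')) := by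
    rw [← sum_fam, ← sum_fam, smul_sum, smul_sum, ← sum_add_distrib]
    refine sum_congr rfl fun S _ => ?_
    rw [smul_smul, smul_smul, ← add_smul]
    congr 1
    simp only [prod_mul_distrib, prod_const, chi, tsign_phase, hsg]
    ring
  rw [hsum]
  set V : Matrix (Pair d) (Pair d) ℂ := (hN.1.eigenvectorUnitary : Matrix (Pair d) (Pair d) ℂ) with hV
  set ν := hN.1.eigenvalues with hν
  have hVV : V * Vᴴ = 1 := by
    refine mul_eq_one_comm.1 ?_
    rw [hV, ← star_eq_conjTranspose]; simp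
  have hspec : N' = V * diagonal (fun p => ((ν p : ℝ) : ℂ)) * Vᴴ := by
    have := hN.1.spectral_theorem
    simpa [Unitary.conjStarAlgAut_apply, star_eq_conjTranspose, hV, hν, Function.comp_def]
      using this
  have hlin : ∀ c : ℂ, 1 + c • N' = V * diagonal (fun p => 1 + c * ((ν p : ℝ) : ℂ)) * Vᴴ := by
    intro c
    rw [hspec, ← diagonal_add, Matrix.mul_add, Matrix.add_mul, diagonal_one, Matrix.mul_one, hVV]
    congr 1
    rw [← Matrix.smul_mul, ← Matrix.mul_smul, ← diagonal_smul]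
    rfl
  have hcomb : ∀ c c' : ℂ, (1 + c • N') + c' • N' = 1 + (c + c') • N' := by
    intro c c'; rw [add_smul, add_assoc]
  simp only [smul_smul, hcomb]
  simp only [hlin, tfam_diag]
  set Vt := tfam fun _ : Fin l => V
  rw [← Matrix.smul_mul, ← Matrix.mul_smul, ← diagonal_smul, ← Matrix.smul_mul, ← Matrix.mul_smul,
    ← diagonal_smul, ← Matrix.smul_mul, ← Matrix.mul_smul, ← diagonal_smul, ← Matrix.add_mul,
    ← Matrix.mul_add, diagonal_add, ← Matrix.add_mul, ← Matrix.mul_add, diagonal_add]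
  refine (Matrix.posSemidef_diagonal_iff.2 fun z => ?_).mul_mul_conjTranspose_same Vt
  simp only [Pi.smul_apply, smul_eq_mul]
  set w : Fin l → ℂ := fun i =>
    1 + ((a : ℂ) + Complex.I * sg i * ((a * θ : ℝ) : ℂ)) * ((ν (z.1 i, z.2 i) : ℝ) : ℂ) with hw
  have hconj : ∏ i, (1 + ((a : ℂ) + -Complex.I * sg i * ((a * θ : ℝ) : ℂ)) *
      ((ν (z.1 i, z.2 i) : ℝ) : ℂ)) = (starRingEnd ℂ) (∏ i, w i) := by
    rw [map_prod]
    refine prod_congr rfl fun i _ => ?_
    simp [hw, hsg, apply_ite (starRingEnd ℂ)]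
  have hnorm : ∀ i, ‖w i‖ ≤ 1 + a' * ν (z.1 i, z.2 i) := by
    intro i
    have hν0 : 0 ≤ ν (z.1 i, z.2 i) := hN.eigenvalues_nonneg _
    set y := a * ν (z.1 i, z.2 i) with hy
    have hy0 : 0 ≤ y := mul_nonneg ha hν0
    have e : a' * ν (z.1 i, z.2 i) = y + y * θ ^ 2 := by rw [ha', hy]; ring
    rw [e, ← sq_le_sq₀ (norm_nonneg _) (by positivity), Complex.sq_norm, Complex.normSq_apply]
    have hre : (w i).re = 1 + y := by
      simp [hw, hsg, hy]; split_ifs <;> simp
    have him : (w i).im * (w i).im = y ^ 2 * θ ^ 2 := by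
      simp [hw, hsg, hy]; split_ifs <;> simp <;> ring
    rw [hre, him]
    nlinarith [mul_nonneg hy0 (sq_nonneg θ), mul_nonneg (mul_nonneg hy0 hy0) (sq_nonneg θ),
      mul_nonneg (mul_nonneg hy0 hy0) (sq_nonneg (θ ^ 2))]
  have hP : ‖∏ i, w i‖ ≤ ∏ i, (1 + a' * ν (z.1 i, z.2 i)) := by
    rw [norm_prod]; exact prod_le_prod (fun i _ => norm_nonneg _) fun i _ => hnorm i
  rw [hconj]
  have e : (1 - Complex.I) / 2 * ∏ i, w i + (1 + Complex.I) / 2 * (starRingEnd ℂ) (∏ i, w i) =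
      ((((1 - Complex.I) * ∏ i, w i).re : ℝ) : ℂ) := by
    rw [Complex.re_eq_add_conj, map_mul, map_sub, map_one, Complex.conj_I]
    ring
  rw [e]
  have e' : ∏ i, (1 + (a' : ℂ) * ((ν (z.1 i, z.2 i) : ℝ) : ℂ)) =
      ((∏ i, (1 + a' * ν (z.1 i, z.2 i)) : ℝ) : ℂ) := by push_cast; rfl
  rw [e', ← Complex.ofReal_mul, ← Complex.ofReal_add]
  exact_mod_cast phase_bound _ _ hP

end Vale.Agent.P372.Full
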