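import Vale.Agent.P372.Full.Witness
import Vale.Agent.P372.Full.Defs

/-!
The linked operator is an entangled state, given a suitable family of matrices.
-/

open Matrix Finset
open scoped ComplexOrder

namespace Vale.Agent.P372.Full

open Vale.Agent.Results.P372.IndividualMeasurements
open Vale.Agent.P372.Link

variable {d l : ℕ}

lemma linkOp_psd {α β γ : Type} [Fintype α] [Fintype β] [Fintype γ] [DecidableEq α]
    [DecidableEq β] [DecidableEq γ] {X : Matrix (α × γ) (α × γ) ℂ} {Y : Matrix (β × γ) (β × γ) ℂ}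
    (hX : X.PosSemidef) (hY : Y.PosSemidef) : (linkOp X Y).PosSemidef := by
  set E : Matrix ((α × γ) × (β × γ)) (α × β) ℂ := Matrix.of fun x y =>
    if x.1.1 = y.1 ∧ x.2.1 = y.2 ∧ x.1.2 = x.2.2 then 1 else 0
  have e : linkOp X Y = Eᴴ * prodOp X Y * E := by
    ext x y
    simp only [linkOp, E, prodOp, Matrix.of_apply, Matrix.mul_apply, conjTranspose_apply,
      Fintype.sum_prod_type, apply_ite (star : ℂ → ℂ), star_one, star_zero, ite_mul, one_mul,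
      zero_mul, mul_ite, mul_one, mul_zero, ite_and, Finset.sum_ite_eq', Finset.sum_ite_eq,
      mem_univ, if_true, Finset.sum_const_zero, Finset.sum_ite_irrel]
    rw [Finset.sum_comm]
  rw [e]
  exact (prodOp_psd hX hY).conjTranspose_mul_mul_same E

lemma pow_ratio {u t0 : ℝ} {n : ℕ} {x : ℝ} (hu : 0 ≤ u) (ht0 : 0 ≤ t0) (h : u ≤ t0 * (1 + x))
    (hx : 0 ≤ x) (hn : (n : ℝ) * x ≤ 1) : u ^ n ≤ 3 * t0 ^ n := by
  have h1 : (1 + x) ^ n ≤ 3 := by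
    calc (1 + x) ^ n ≤ Real.exp x ^ n :=
          pow_le_pow_left₀ (by linarith) (by linarith [Real.add_one_le_exp x]) n
      _ = Real.exp (n * x) := (Real.exp_nat_mul x n).symm
      _ ≤ Real.exp 1 := Real.exp_le_exp.2 hn
      _ ≤ 3 := Real.exp_one_lt_three.le
  calc u ^ n ≤ (t0 * (1 + x)) ^ n := pow_le_pow_left₀ hu h n
    _ = (1 + x) ^ n * t0 ^ n := by rw [mul_pow]; ring
    _ ≤ 3 * t0 ^ n := mul_le_mul_of_nonneg_right h1 (pow_nonneg ht0 n)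

/-- The value of the trace of a linked pair at one site. -/
def siteVal (d : ℕ) (α β : ℝ) : ℝ := ((d : ℝ) + β) * ((d : ℝ) ^ 2 + α * ((d : ℝ) * d))

lemma siteVal_nonneg {α β : ℝ} (hα : 0 ≤ α) (hβ : 0 ≤ β) : 0 ≤ siteVal d α β := by
  unfold siteVal; positivity

lemma siteVal_pos (hd : 0 < d) {α β : ℝ} (hα : 0 ≤ α) (hβ : 0 ≤ β) : 0 < siteVal d α β := by
  have : (0 : ℝ) < d := by exact_mod_cast hd
  unfold siteVal; positivity

lemma siteVal_beta (hd : 0 < d) {α : ℝ} (hα : 0 ≤ α) :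
    siteVal d α 1 ≤ siteVal d α (1 / 2) * (1 + 1 / (2 * (d : ℝ))) := by
  have hdp : (0 : ℝ) < d := by exact_mod_cast hd
  have e : ((d : ℝ) + 1 / 2) * (1 + 1 / (2 * (d : ℝ))) = (d : ℝ) + 1 + 1 / (4 * (d : ℝ)) := by
    field_simp; ring
  unfold siteVal
  rw [mul_right_comm]
  refine mul_le_mul_of_nonneg_right ?_ (by positivity)
  rw [e]
  have : 0 ≤ 1 / (4 * (d : ℝ)) := by positivity
  linarith

lemma siteVal_alpha {a y β : ℝ} (ha : 0 ≤ a) (hy : 0 ≤ y) (hβ : 0 ≤ β) :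
    siteVal d (a + y) β ≤ siteVal d a β * (1 + y) := by
  unfold siteVal
  rw [mul_assoc]
  refine mul_le_mul_of_nonneg_left ?_ (by positivity)
  have := mul_nonneg (mul_nonneg ha hy) (sq_nonneg (d : ℝ))
  linarith

lemma siteVal_le {a : ℝ} (hd : 0 < d) (ha0 : 0 ≤ a) (ha : a ≤ 1 / 2) :
    siteVal d a (1 / 2) ≤ 9 / 4 * (d : ℝ) ^ 3 := by
  have hd1 : (1 : ℝ) ≤ d := by exact_mod_cast hd
  unfold siteVal
  have h1 : (d : ℝ) + 1 / 2 ≤ 3 / 2 * d := by linarith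
  have h2 : (d : ℝ) ^ 2 + a * ((d : ℝ) * d) ≤ 3 / 2 * (d : ℝ) ^ 2 := by
    have := mul_le_mul_of_nonneg_right ha (mul_self_nonneg (d : ℝ)); linarith
  refine (mul_le_mul h1 h2 (by positivity) (by positivity)).trans (le_of_eq ?_)
  ring

/-- The four terms of the trace are of the size of the first. -/
lemma trace_ratio (hd : 0 < d) {a θ : ℝ} (ha : 0 ≤ a) (hθ : θ ^ 2 * (a * d) = 1 / 2) :
    siteVal d a (1 / 2) ^ (2 * d) + Real.sqrt 2 * siteVal d a 1 ^ (2 * d) +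
      Real.sqrt 2 * siteVal d (a * (1 + θ ^ 2)) (1 / 2) ^ (2 * d) +
      2 * siteVal d (a * (1 + θ ^ 2)) 1 ^ (2 * d) ≤ 28 * siteVal d a (1 / 2) ^ (2 * d) := by
  have hdp : (0 : ℝ) < d := by exact_mod_cast hd
  have hy : 0 ≤ a * θ ^ 2 := by positivity
  have hyn : ((2 * d : ℕ) : ℝ) * (a * θ ^ 2) ≤ 1 := by push_cast; linarith
  have hxn : ((2 * d : ℕ) : ℝ) * (1 / (2 * (d : ℝ))) ≤ 1 := by
    push_cast; rw [mul_one_div_cancel (by positivity)]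
  have hx : 0 ≤ 1 / (2 * (d : ℝ)) := by positivity
  rw [show a * (1 + θ ^ 2) = a + a * θ ^ 2 by ring]
  have h0 := siteVal_nonneg (d := d) (β := 1 / 2) ha (by norm_num)
  have h0' := siteVal_nonneg (d := d) (β := 1 / 2) (add_nonneg ha hy) (by norm_num)
  have q1 := pow_ratio (siteVal_nonneg ha zero_le_one) h0 (siteVal_beta hd ha) hx hxn
  have q2 := pow_ratio h0' h0 (siteVal_alpha ha hy (by norm_num : (0 : ℝ) ≤ 1 / 2)) hy hyn
  have q3 := pow_ratio (siteVal_nonneg (add_nonneg ha hy) zero_le_one) h0'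
    (siteVal_beta hd (add_nonneg ha hy)) hx hxn
  have hs : Real.sqrt 2 ≤ 3 / 2 := Real.sqrt_le_iff.2 ⟨by norm_num, by norm_num⟩
  have := mul_le_mul hs q1 (pow_nonneg (siteVal_nonneg ha zero_le_one) _) (by norm_num)
  have := mul_le_mul hs q2 (pow_nonneg h0' _) (by norm_num)
  have := pow_nonneg h0 (2 * d)
  linarith

/-- The witness value wins. -/
lemma value_gt (hd : 0 < d) {C a θ Q : ℝ} (hC : 0 ≤ C) (ha0 : 0 ≤ a) (ha : a ≤ 1 / 2)
    (hG : 12000 * C ^ 2 + 1 ≤ a * d) (hθ0 : 0 ≤ θ) (hθ : θ ^ 2 * (a * d) = 1 / 2)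
    (hQ : (d : ℝ) * (d : ℝ) ^ 2 ≤ Q) :
    C * (28 * siteVal d a (1 / 2) ^ (2 * d)) <
      ((2 * d : ℕ) : ℝ) * (a * θ * (1 / 2 * 1) * Q * siteVal d a (1 / 2) ^ (2 * d - 1)) := by
  have hdp : (0 : ℝ) < d := by exact_mod_cast hd
  set G := a * (d : ℝ) with hGd
  set t0 := siteVal d a (1 / 2)
  have hGp : 0 < G := by nlinarith [sq_nonneg C]
  have hsq : (θ * G) ^ 2 = G / 2 := by
    calc (θ * G) ^ 2 = θ ^ 2 * G * G := by ring
      _ = _ := by rw [hθ]; ring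
  have h64 : 64 * C < θ * G := by
    refine lt_of_pow_lt_pow_left₀ 2 (by positivity) ?_
    rw [hsq, mul_pow]
    linarith [sq_nonneg C]
  have h3 : (0 : ℝ) < (d : ℝ) ^ 3 := by positivity
  have key : C * (28 * t0) < (d : ℝ) * (a * θ) * Q := by
    calc C * (28 * t0) ≤ C * (28 * (9 / 4 * (d : ℝ) ^ 3)) :=
          mul_le_mul_of_nonneg_left (by linarith [siteVal_le hd ha0 ha]) hC
      _ = 63 * C * (d : ℝ) ^ 3 := by ring
      _ < θ * G * (d : ℝ) ^ 3 := mul_lt_mul_of_pos_right (by linarith) h3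
      _ = (d : ℝ) * (a * θ) * ((d : ℝ) * (d : ℝ) ^ 2) := by rw [hGd]; ring
      _ ≤ _ := mul_le_mul_of_nonneg_left hQ (by positivity)
  have ht : 0 < t0 := siteVal_pos hd ha0 (by norm_num)
  have := mul_lt_mul_of_pos_right key (pow_pos ht (2 * d - 1))
  have hpw : t0 ^ (2 * d) = t0 * t0 ^ (2 * d - 1) := by
    conv_lhs => rw [show 2 * d = 1 + (2 * d - 1) by omega, pow_add, pow_one]
  rw [hpw]
  push_cast
  linarith

/-- The first map. -/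
noncomputable def mapA (U : Fin d → Fin d → Fin d → ℝ) (a θ : ℝ) :
    Matrix (Sys (2 * d) d × Sys (2 * d) d) (Sys (2 * d) d × Sys (2 * d) d) ℂ :=
  choi (2 * d) (1 + (a : ℂ) • nOp U) (((a * θ : ℝ) : ℂ) • nOp U)
    (1 + ((a * (1 + θ ^ 2) : ℝ) : ℂ) • nOp U)

/-- The second map. -/
noncomputable def mapB (d : ℕ) :
    Matrix (Sys (2 * d) d × Sys (2 * d) d) (Sys (2 * d) d × Sys (2 * d) d) ℂ :=
  choi (2 * d) (1 + ((1 / 2 : ℝ) : ℂ) • nOp (idFam d)) (((1 / 2 * 1 : ℝ) : ℂ) • nOp (idFam d))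
    (1 + ((1 : ℝ) : ℂ) • nOp (idFam d))

lemma affine_pair {ι : Type} [Fintype ι] [DecidableEq ι] {N : Matrix ι ι ℂ} {K x y : ℝ}
    (hK : 0 ≤ K) (h1 : ((K : ℂ) • (1 : Matrix ι ι ℂ) + N).PosSemidef)
    (h2 : ((K : ℂ) • (1 : Matrix ι ι ℂ) - N).PosSemidef) (hp : |x + y| * K ≤ 1)
    (hm : |x - y| * K ≤ 1) :
    ((1 + (x : ℂ) • N) + (y : ℂ) • N).PosSemidef ∧
      ((1 + (x : ℂ) • N) - (y : ℂ) • N).PosSemidef := by
  constructor
  · refine (congrArg Matrix.PosSemidef ?_).mp (one_add_smul_psd hK h1 h2 hp)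
    rw [add_assoc, ← add_smul, Complex.ofReal_add]
  · refine (congrArg Matrix.PosSemidef ?_).mp (one_add_smul_psd hK h1 h2 hm)
    rw [add_sub_assoc, ← sub_smul, Complex.ofReal_sub]

lemma mapA_psd (U : Fin d → Fin d → Fin d → ℝ) {K a θ : ℝ} (hK : 0 ≤ K)
    (hNp : ((K : ℂ) • (1 : Matrix (Pair d) (Pair d) ℂ) + nOp U).PosSemidef)
    (hNm : ((K : ℂ) • (1 : Matrix (Pair d) (Pair d) ℂ) - nOp U).PosSemidef)
    (ha : 0 ≤ a) (haK : a * K ≤ 1 / 2) (hθ0 : 0 ≤ θ) (hθ1 : θ ≤ 1) :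
    (mapA U a θ).PosSemidef ∧ (ptr (mapA U a θ)).PosSemidef := by
  have hh : ∀ x : ℝ, |x| ≤ 2 * a → |x| * K ≤ 1 := fun x hx => by
    have := mul_le_mul_of_nonneg_right hx hK; linarith
  have h1 : a * θ ≤ a := mul_le_of_le_one_right ha hθ1
  have h2 : θ ^ 2 ≤ 1 := pow_le_one₀ hθ0 hθ1
  have h3 : a * θ ^ 2 ≤ a := mul_le_of_le_one_right ha h2
  obtain ⟨hp, hm⟩ := affine_pair (x := a) (y := a * θ) hK hNp hNm
    (hh _ (by rw [abs_of_nonneg (by positivity)]; linarith))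
    (hh _ (by rw [abs_of_nonneg (by linarith)]; nlinarith))
  refine ⟨choi_psd hp hm (one_add_smul_psd hK hNp hNm (hh _ ?_)), choi_ptr_psd ha rfl ?_⟩
  · rw [abs_of_nonneg (by positivity)]; linarith
  · rw [ptr_nOp]; exact vecOp_psd U

lemma mapB_psd (d : ℕ) : (mapB d).PosSemidef ∧ (ptr (mapB d)).PosSemidef := by
  obtain ⟨h1, h2⟩ := idFam_bound (d := d)
  obtain ⟨hp, hm⟩ := affine_pair (x := 1 / 2) (y := 1 / 2 * 1) zero_le_one h1 h2
    (by norm_num) (by norm_num)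
  refine ⟨choi_psd hp hm (one_add_smul_psd zero_le_one h1 h2 (by norm_num)),
    choi_ptr_psd (by norm_num) (by norm_num) ?_⟩
  rw [ptr_nOp]; exact vecOp_psd _

lemma trace_maps (U : Fin d → Fin d → Fin d → ℝ) (hU : ∀ k, ∑ i, ∑ j, U k i j ^ 2 = (d : ℝ))
    (a θ : ℝ) : (linkOp (mapA U a θ) (mapB d)).trace =
    (((2 : ℝ) ^ (2 * d) * 2 ^ (2 * d) * 2 ^ (2 * d) *
      (siteVal d a (1 / 2) ^ (2 * d) + Real.sqrt 2 * siteVal d a 1 ^ (2 * d) +
        Real.sqrt 2 * siteVal d (a * (1 + θ ^ 2)) (1 / 2) ^ (2 * d) +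
        2 * siteVal d (a * (1 + θ ^ 2)) 1 ^ (2 * d)) : ℝ) : ℂ) := by
  have htr : ∀ α β : ℝ, (linkOp (1 + (α : ℂ) • nOp U) (1 + (β : ℂ) • nOp (idFam d))).trace =
      ((siteVal d α β : ℝ) : ℂ) := by
    intro α β; rw [trace_linkOp_affine U hU]; simp [siteVal]
  have h := trace_linked (l := 2 * d) (1 + (a : ℂ) • nOp U) (((a * θ : ℝ) : ℂ) • nOp U)
    (1 + ((a * (1 + θ ^ 2) : ℝ) : ℂ) • nOp U) (1 + ((1 / 2 : ℝ) : ℂ) • nOp (idFam d))
    (((1 / 2 * 1 : ℝ) : ℂ) • nOp (idFam d)) (1 + ((1 : ℝ) : ℂ) • nOp (idFam d))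
  rw [htr, htr, htr, htr] at h
  refine Eq.trans h ?_
  simp only [Complex.ofReal_mul, Complex.ofReal_add, Complex.ofReal_pow, Complex.ofReal_ofNat]

lemma wit_maps (U : Fin d → Fin d → Fin d → ℝ) (hU : ∀ k, ∑ i, ∑ j, U k i j ^ 2 = (d : ℝ))
    (a θ : ℝ) : ∃ Q : ℝ, (d : ℝ) * (d : ℝ) ^ 2 ≤ Q ∧
    (linkOp (mapA U a θ) (mapB d) * wit (2 * d) (vecOp U)).trace =
      (((2 : ℝ) ^ (2 * d) * 2 ^ (2 * d) * 2 ^ (2 * d) *
        (((2 * d : ℕ) : ℝ) * (a * θ * (1 / 2 * 1) * Q * siteVal d a (1 / 2) ^ (2 * d - 1))) : ℝ) : ℂ) := by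
  obtain ⟨Q, hQ, hQge⟩ := trace_vecOp_sq U hU
  refine ⟨Q, hQge, ?_⟩
  have h := trace_wit_linked (l := 2 * d) (vecOp U) (1 + (a : ℂ) • nOp U) (((a * θ : ℝ) : ℂ) • nOp U)
    (1 + ((a * (1 + θ ^ 2) : ℝ) : ℂ) • nOp U) (1 + ((1 / 2 : ℝ) : ℂ) • nOp (idFam d))
    (((1 / 2 * 1 : ℝ) : ℂ) • nOp (idFam d)) (1 + ((1 : ℝ) : ℂ) • nOp (idFam d))
  rw [trace_linkOp_affine U hU, linkOp_smul, linkOp_nOp_id, Matrix.smul_mul, trace_smul, hQ,
    smul_eq_mul] at h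
  refine Eq.trans h ?_
  simp only [siteVal, Complex.ofReal_mul, Complex.ofReal_add, Complex.ofReal_pow,
    Complex.ofReal_natCast, Complex.ofReal_ofNat]

/-- An operator with too large a witness value is not separable. -/
lemma not_separable (U : Fin d → Fin d → Fin d → ℝ) {C : ℝ} (hC0 : 0 ≤ C)
    (hC : ∀ a b : Fin d → ℂ, ∑ k, ‖∑ i, ∑ j, a i * (U k i j : ℂ) * b j‖ ^ 2 ≤
      C * (∑ i, ‖a i‖ ^ 2) * ∑ j, ‖b j‖ ^ 2)
    {L : Matrix (Sys l d × Sys l d) (Sys l d × Sys l d) ℂ} {T W : ℝ} (hT : 0 < T)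
    (hLW : (L * wit l (vecOp U)).trace = (W : ℂ)) (hgt : C * T < W) {D : ℕ}
    (e : Fin D ≃ Sys l d) :
    ¬ Zero.Separable (((T⁻¹ : ℝ) : ℂ) • L |>.submatrix (e.prodCongr e) (e.prodCongr e)) := by
  rintro ⟨r, w, α, β, hw, hw1, hst, hsum⟩
  set α' := fun k => (α k).submatrix e.symm e.symm
  set β' := fun k => (β k).submatrix e.symm e.symm
  have hdec : ((T⁻¹ : ℝ) : ℂ) • L = ∑ k, (w k : ℂ) • prodOp (α' k) (β' k) := by
    ext x y
    have := hsum (e.symm x.1, e.symm x.2) (e.symm y.1, e.symm y.2)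
    simpa [α', β', prodOp, Matrix.sum_apply] using this
  have hk : ∀ k, (wit l (vecOp U) * prodOp (α' k) (β' k)).trace.re ≤ C := by
    intro k
    refine (wit_product_le U hC0 hC ((hst k).1.1.submatrix _) ((hst k).2.1.submatrix _)).trans
      (le_of_eq ?_)
    rw [trace_submatrix, trace_submatrix, (hst k).1.2, (hst k).2.2]
    simp
  have hle : (wit l (vecOp U) * (((T⁻¹ : ℝ) : ℂ) • L)).trace.re ≤ C := by
    rw [hdec, Matrix.mul_sum, trace_sum, Complex.re_sum]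
    calc _ ≤ ∑ k, w k * C := sum_le_sum fun k _ => by
          rw [Matrix.mul_smul, trace_smul, smul_eq_mul, Complex.re_ofReal_mul]
          exact mul_le_mul_of_nonneg_left (hk k) (hw k)
      _ = C := by rw [← sum_mul, hw1, one_mul]
  rw [Matrix.mul_smul, trace_smul, trace_mul_comm, hLW, smul_eq_mul, ← Complex.ofReal_mul,
    Complex.ofReal_re, inv_mul_eq_div, div_le_iff₀ hT] at hle
  linarith

/-- An entangled state in linked form. -/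
theorem entangled_linked {C : ℝ} (hC0 : 0 ≤ C) (hd : 0 < d) (U : Fin d → Fin d → Fin d → ℝ) {K : ℝ}
    (hK1 : 1 ≤ K) (hKd : K ≤ 1 / (2 * (12000 * C ^ 2 + 1)) * d)
    (hU : ∀ k, ∑ i, ∑ j, U k i j ^ 2 = (d : ℝ))
    (hC : ∀ a b : Fin d → ℂ, ∑ k, ‖∑ i, ∑ j, a i * (U k i j : ℂ) * b j‖ ^ 2 ≤
      C * (∑ i, ‖a i‖ ^ 2) * ∑ j, ‖b j‖ ^ 2)
    (hNp : ((K : ℂ) • (1 : Matrix (Pair d) (Pair d) ℂ) + nOp U).PosSemidef)
    (hNm : ((K : ℂ) • (1 : Matrix (Pair d) (Pair d) ℂ) - nOp U).PosSemidef) :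
    ∃ (D : ℕ) (e : Fin D ≃ Sys (2 * d) d)
      (J J' : Matrix (Sys (2 * d) d × Sys (2 * d) d) (Sys (2 * d) d × Sys (2 * d) d) ℂ)
      (c : ℝ), 0 ≤ c ∧ J.PosSemidef ∧ (ptr J).PosSemidef ∧ J'.PosSemidef ∧ (ptr J').PosSemidef ∧
      Zero.State (((c : ℂ) • linkOp J J').submatrix (e.prodCongr e) (e.prodCongr e)) ∧
      ¬ Zero.Separable (((c : ℂ) • linkOp J J').submatrix (e.prodCongr e) (e.prodCongr e)) := by
  have hdp : (0 : ℝ) < d := by exact_mod_cast hd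
  have hK0 : 0 < K := by linarith
  set a : ℝ := 1 / (2 * K) with ha
  have ha0 : 0 ≤ a := by positivity
  have haK : a * K = 1 / 2 := by rw [ha]; field_simp
  have haU : a ≤ 1 / 2 := by nlinarith
  have hG : 12000 * C ^ 2 + 1 ≤ a * d := by
    rw [div_mul_eq_mul_div, one_mul, le_div_iff₀ (by positivity)] at hKd
    rw [ha, div_mul_eq_mul_div, one_mul, le_div_iff₀ (by positivity)]
    linarith
  set G : ℝ := a * d with hGd
  have hG1 : 1 ≤ G := by linarith [sq_nonneg C]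
  set θ : ℝ := Real.sqrt (1 / (2 * G)) with hθ
  have hθ0 : 0 ≤ θ := Real.sqrt_nonneg _
  have hθG : θ ^ 2 * G = 1 / 2 := by
    rw [hθ, Real.sq_sqrt (by positivity)]; field_simp
  have hθ1 : θ ≤ 1 := by nlinarith
  obtain ⟨hA, hA'⟩ := mapA_psd U hK0.le hNp hNm ha0 haK.le hθ0 hθ1
  obtain ⟨hB, hB'⟩ := mapB_psd d
  obtain ⟨Q, hQ, hLW⟩ := wit_maps U hU a θ
  have hLT := trace_maps U hU a θ
  set T : ℝ := (2 : ℝ) ^ (2 * d) * 2 ^ (2 * d) * 2 ^ (2 * d) *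
      (siteVal d a (1 / 2) ^ (2 * d) + Real.sqrt 2 * siteVal d a 1 ^ (2 * d) +
        Real.sqrt 2 * siteVal d (a * (1 + θ ^ 2)) (1 / 2) ^ (2 * d) +
        2 * siteVal d (a * (1 + θ ^ 2)) 1 ^ (2 * d)) with hT
  have hn : ∀ α β : ℝ, 0 ≤ α → 0 ≤ β → 0 ≤ siteVal d α β ^ (2 * d) := fun α β h1 h2 =>
    pow_nonneg (siteVal_nonneg h1 h2) _
  have hTp : 0 < T := by
    rw [hT]
    have := hn a 1 ha0 zero_le_one
    have := hn (a * (1 + θ ^ 2)) (1 / 2) (by positivity) (by norm_num)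
    have := hn (a * (1 + θ ^ 2)) 1 (by positivity) zero_le_one
    have := pow_pos (siteVal_pos (d := d) hd ha0 (by norm_num : (0 : ℝ) ≤ 1 / 2)) (2 * d)
    positivity
  refine ⟨_, (Fintype.equivFin (Sys (2 * d) d)).symm, mapA U a θ, mapB d, T⁻¹,
    inv_nonneg.2 hTp.le, hA, hA', hB, hB', ⟨?_, ?_⟩, not_separable U hC0 hC hTp hLW ?_ _⟩
  · exact ((linkOp_psd hA hB).smul (by exact_mod_cast inv_nonneg.2 hTp.le)).submatrix _
  · rw [trace_submatrix, trace_smul, hLT, smul_eq_mul, ← Complex.ofReal_mul,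
      inv_mul_cancel₀ hTp.ne', Complex.ofReal_one]
  · rw [hT]
    refine lt_of_le_of_lt ?_ (mul_lt_mul_of_pos_left
      (value_gt hd hC0 ha0 haU hG hθ0 hθG hQ) (by positivity))
    rw [mul_left_comm]
    exact mul_le_mul_of_nonneg_left (mul_le_mul_of_nonneg_left (trace_ratio hd ha0 hθG) hC0)
      (by positivity)

end Vale.Agent.P372.Full
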