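import Vale.Agent.P372.Link

/-!
Signed flips of bit strings: a family of real anticommuting symmetric matrices and their products.
-/

open Matrix Finset
open scoped ComplexOrder

namespace Vale.Agent.P372.Full

open Vale.Agent.Results.P372.IndividualMeasurements
open Vale.Agent.P372.Link

variable {l : ℕ}

abbrev Tag (l : ℕ) := Fin l → Bool

/-- Flip the bits in `S`. -/
def flipBits (S : Finset (Fin l)) (x : Tag l) : Tag l := fun j => if j ∈ S then !(x j) else x j

lemma flipBits_flipBits (S U : Finset (Fin l)) (x : Tag l) :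
    flipBits U (flipBits S x) = flipBits (symmDiff S U) x := by
  funext j
  by_cases h1 : j ∈ S <;> by_cases h2 : j ∈ U <;> simp [flipBits, Finset.mem_symmDiff, h1, h2]

lemma flipBits_inv (S : Finset (Fin l)) (x : Tag l) : flipBits S (flipBits S x) = x := by
  funext j; by_cases h : j ∈ S <;> simp [flipBits, h]

/-- Sign of a flip at a bit string. -/
def fsign (S : Finset (Fin l)) (x : Tag l) : ℝ :=
  ∏ i ∈ S, ∏ j ∈ univ.filter (fun j => j < i), if x j then -1 else 1

/-- Change of the sign of `U` under the flip `S`. -/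
def xsign (U S : Finset (Fin l)) : ℝ :=
  ∏ i ∈ U, ∏ j ∈ univ.filter (fun j => j < i), if j ∈ S then -1 else 1

lemma fsign_flip (U S : Finset (Fin l)) (x : Tag l) :
    fsign U (flipBits S x) = xsign U S * fsign U x := by
  simp only [fsign, xsign, ← prod_mul_distrib]
  refine prod_congr rfl fun i _ => prod_congr rfl fun j _ => ?_
  by_cases h : j ∈ S <;> cases hx : x j <;> simp [flipBits, h, hx]

lemma prod_sq_one {ι : Type} (s : Finset ι) (f : ι → ℝ) (h : ∀ i ∈ s, f i * f i = 1) :
    (∏ i ∈ s, f i) * ∏ i ∈ s, f i = 1 := by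
  rw [← prod_mul_distrib, prod_congr rfl h, prod_const_one]

lemma fsign_sq (S : Finset (Fin l)) (x : Tag l) : fsign S x * fsign S x = 1 :=
  prod_sq_one _ _ fun i _ => prod_sq_one _ _ fun j _ => by cases x j <;> simp

lemma xsign_sq (U S : Finset (Fin l)) : xsign U S * xsign U S = 1 :=
  prod_sq_one _ _ fun i _ => prod_sq_one _ _ fun j _ => by by_cases h : j ∈ S <;> simp [h]

lemma fsign_symmDiff (S U : Finset (Fin l)) (x : Tag l) :
    fsign S x * fsign U x = fsign (symmDiff S U) x := by
  classical
  simp only [fsign]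
  set f : Fin l → ℝ := fun i => ∏ j ∈ univ.filter (fun j => j < i), if x j then -1 else 1
  have hf : ∀ i, f i * f i = 1 := fun i => prod_sq_one _ _ fun j _ => by cases x j <;> simp
  have e : ∀ T : Finset (Fin l), ∏ i ∈ T, f i = ∏ i, if i ∈ T then f i else 1 := fun T => by simp
  show (∏ i ∈ S, f i) * ∏ i ∈ U, f i = ∏ i ∈ symmDiff S U, f i
  rw [e S, e U, e (symmDiff S U), ← prod_mul_distrib]
  refine prod_congr rfl fun i _ => ?_
  by_cases h1 : i ∈ S <;> by_cases h2 : i ∈ U <;> simp [Finset.mem_symmDiff, h1, h2, hf]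

/-- The sign of the transpose. -/
def tsign (S : Finset (Fin l)) : ℝ := xsign S S

lemma tsign_empty : tsign (∅ : Finset (Fin l)) = 1 := by simp [tsign, xsign]

lemma tsign_singleton (i : Fin l) : tsign ({i} : Finset (Fin l)) = 1 := by
  simp only [tsign, xsign, prod_singleton]
  refine prod_eq_one fun j hj => ?_
  simp only [mem_filter, mem_univ, true_and] at hj
  simp [hj.ne]

lemma tsign_insert {a : Fin l} {S : Finset (Fin l)} (h : ∀ x ∈ S, x < a) :
    tsign (insert a S) = (-1) ^ S.card * tsign S := by
  have ha : a ∉ S := fun hh => lt_irrefl _ (h a hh)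
  simp only [tsign, xsign, prod_insert ha]
  congr 1
  · rw [Finset.prod_ite]
    simp only [prod_const, one_pow, mul_one]
    congr 1
    refine congrArg Finset.card ?_
    ext j
    simp only [mem_filter, mem_univ, true_and, mem_insert]
    constructor
    · rintro ⟨h1, h2 | h2⟩
      · exact absurd h2 h1.ne
      · exact h2
    · exact fun h2 => ⟨h j h2, Or.inr h2⟩
  · refine prod_congr rfl fun i hi => prod_congr rfl fun j hj => ?_
    simp only [mem_filter, mem_univ, true_and] at hj
    have : j ≠ a := (hj.trans (h i hi)).ne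
    simp [this]

/-- The sign as a combination of two phases. -/
lemma tsign_phase (S : Finset (Fin l)) : (tsign S : ℂ) =
    ((1 - Complex.I) * Complex.I ^ S.card + (1 + Complex.I) * (-Complex.I) ^ S.card) / 2 := by
  induction S using Finset.induction_on_max with
  | empty => simp [tsign_empty]
  | insert a S hS ih =>
    rw [tsign_insert hS, card_insert_of_notMem (fun hh => lt_irrefl _ (hS a hh))]
    push_cast
    rw [ih, pow_succ, pow_succ]
    rcases Nat.even_or_odd S.card with hn | hn
    · rw [hn.neg_one_pow, hn.neg_pow]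
      linear_combination ((Complex.I ^ S.card) * 1) * Complex.I_sq
    · rw [hn.neg_one_pow, hn.neg_pow]
      linear_combination (0 : ℂ) * Complex.I_sq

/-- The signed flip. -/
def gmat (S : Finset (Fin l)) : Matrix (Tag l) (Tag l) ℂ :=
  Matrix.of fun x y => if y = flipBits S x then (fsign S x : ℂ) else 0

lemma gmat_transpose (S : Finset (Fin l)) : (gmat S)ᵀ = (tsign S : ℂ) • gmat S := by
  ext x y
  simp only [gmat, Matrix.transpose_apply, Matrix.of_apply, Matrix.smul_apply, smul_eq_mul]
  by_cases h : y = flipBits S x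
  · subst h
    rw [if_pos (flipBits_inv S x).symm, if_pos rfl, fsign_flip]
    simp [tsign]
  · rw [if_neg h, if_neg, mul_zero]
    intro h'; exact h (by rw [h', flipBits_inv])

lemma gmat_conjTranspose (S : Finset (Fin l)) : (gmat S)ᴴ = (tsign S : ℂ) • gmat S := by
  rw [← gmat_transpose]
  ext x y
  simp only [conjTranspose_apply, transpose_apply, gmat, Matrix.of_apply]
  split_ifs <;> simp

lemma gmat_mul (S U : Finset (Fin l)) :
    gmat S * gmat U = (xsign U S : ℂ) • gmat (symmDiff S U) := by
  ext x z
  rw [Matrix.mul_apply, Finset.sum_eq_single (flipBits S x)]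
  · simp only [gmat, Matrix.of_apply, Matrix.smul_apply, smul_eq_mul, if_true, flipBits_flipBits]
    split_ifs with h
    · rw [← Complex.ofReal_mul, ← Complex.ofReal_mul, fsign_flip, ← fsign_symmDiff]
      congr 1; ring
    · simp
  · intro y _ hy; simp [gmat, hy]
  · simp

lemma flipBits_eq_self {S : Finset (Fin l)} (x : Tag l) : flipBits S x = x ↔ S = ∅ := by
  constructor
  · intro h
    refine Finset.eq_empty_of_forall_notMem fun j hj => ?_
    have := congrFun h j
    simp [flipBits, hj] at this
  · rintro rfl; funext j; simp [flipBits]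

lemma gmat_empty : gmat (∅ : Finset (Fin l)) = 1 := by
  ext x y
  have h : flipBits (∅ : Finset (Fin l)) x = x := (flipBits_eq_self x).2 rfl
  by_cases hxy : x = y
  · subst hxy; simp [gmat, h, fsign]
  · simp [gmat, h, Matrix.one_apply, hxy, Ne.symm hxy]

lemma gmat_trace (S : Finset (Fin l)) :
    (gmat S).trace = if S = ∅ then (2 : ℂ) ^ l else 0 := by
  simp only [Matrix.trace, Matrix.diag, gmat, Matrix.of_apply]
  split_ifs with h
  · subst h
    have : ∀ x : Tag l, flipBits (∅ : Finset (Fin l)) x = x := fun x => (flipBits_eq_self x).2 rfl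
    simp [this, fsign]
  · refine sum_eq_zero fun x _ => if_neg fun hh => ?_
    exact h ((flipBits_eq_self x).1 hh.symm)

lemma gmat_trace_mul (S U : Finset (Fin l)) :
    (gmat S * gmat U).trace = if S = U then (tsign U : ℂ) * 2 ^ l else 0 := by
  rw [gmat_mul, trace_smul, gmat_trace, smul_eq_mul]
  by_cases h : S = U
  · subst h; simp [tsign]
  · rw [if_neg h, if_neg, mul_zero]
    exact fun hh => h (symmDiff_eq_bot.1 hh)

lemma gmat_inner (S U : Finset (Fin l)) :
    ∑ c, ∑ c', gmat S c c' * gmat U c c' = if S = U then (2 : ℂ) ^ l else 0 := by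
  have e : ∑ c, ∑ c', gmat S c c' * gmat U c c' = (gmat S * (gmat U)ᵀ).trace := by
    simp [Matrix.trace, Matrix.mul_apply]
  rw [e, gmat_transpose, Matrix.mul_smul, trace_smul, gmat_trace_mul, smul_eq_mul]
  by_cases h : S = U
  · subst h
    simp [← mul_assoc, ← Complex.ofReal_mul, tsign, xsign_sq]
  · simp [h]

/-- The commuting doubled flips. -/
def eta (S : Finset (Fin l)) : Matrix (Tag l × Tag l) (Tag l × Tag l) ℂ :=
  prodOp (gmat S) (gmat S)

lemma eta_mul (S U : Finset (Fin l)) : eta S * eta U = eta (symmDiff S U) := by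
  rw [eta, eta, prodOp_mul, gmat_mul]
  ext x y
  simp only [prodOp, eta, Matrix.smul_apply, smul_eq_mul]
  have h := congrArg (fun r : ℝ => (r : ℂ)) (xsign_sq U S)
  push_cast at h
  linear_combination (gmat (symmDiff S U) x.1 y.1 * gmat (symmDiff S U) x.2 y.2) * h

lemma eta_herm (S : Finset (Fin l)) : (eta S)ᴴ = eta S := by
  rw [eta, prodOp_star, gmat_conjTranspose]
  ext x y
  simp only [prodOp, Matrix.smul_apply, smul_eq_mul]
  have h := congrArg (fun r : ℝ => (r : ℂ)) (xsign_sq S S)
  push_cast at h
  simp only [tsign]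
  linear_combination (gmat S x.1 y.1 * gmat S x.2 y.2) * h

/-- A character. -/
def chi (x : Tag l) (S : Finset (Fin l)) : ℂ := ∏ i ∈ S, if x i then -1 else 1

lemma chi_mul (x : Tag l) (S U : Finset (Fin l)) : chi x S * chi x U = chi x (symmDiff S U) := by
  classical
  set f : Fin l → ℂ := fun i => if x i then -1 else 1
  have e : ∀ T : Finset (Fin l), chi x T = ∏ i, if i ∈ T then f i else 1 := fun T => by
    simp [chi, f]
  rw [e S, e U, e (symmDiff S U), ← prod_mul_distrib]
  refine prod_congr rfl fun i _ => ?_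
  by_cases h1 : i ∈ S <;> by_cases h2 : i ∈ U <;>
    cases hx : x i <;> simp [Finset.mem_symmDiff, h1, h2, f, hx]

lemma chi_star (x : Tag l) (S : Finset (Fin l)) : star (chi x S) = chi x S := by
  simp only [chi, star_prod]
  exact prod_congr rfl fun i _ => by cases x i <;> simp

lemma chi_sum (S : Finset (Fin l)) :
    ∑ x : Tag l, chi x S = if S = ∅ then (2 : ℂ) ^ l else 0 := by
  classical
  have e : ∀ x : Tag l, chi x S = ∏ i, if i ∈ S then (if x i then (-1:ℂ) else 1) else 1 :=
    fun x => by simp [chi]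
  simp only [e]
  rw [← Fintype.prod_sum (fun i (b : Bool) => if i ∈ S then (if b then (-1:ℂ) else 1) else 1)]
  split_ifs with h
  · subst h; simp
  · obtain ⟨i, hi⟩ := Finset.nonempty_iff_ne_empty.2 h
    exact prod_eq_zero (mem_univ i) (by simp [hi])

/-- The joint spectral projection of the commuting flips. -/
noncomputable def spec (x : Tag l) : Matrix (Tag l × Tag l) (Tag l × Tag l) ℂ :=
  ((2 : ℂ) ^ l)⁻¹ • ∑ S : Finset (Fin l), chi x S • eta S

lemma sum_symmDiff {M : Type} [AddCommMonoid M] (S : Finset (Fin l)) (f : Finset (Fin l) → M) :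
    ∑ U, f (symmDiff S U) = ∑ U, f U :=
  Equiv.sum_comp ⟨fun U => symmDiff S U, fun U => symmDiff S U,
    fun U => symmDiff_symmDiff_cancel_left S U, fun U => symmDiff_symmDiff_cancel_left S U⟩ f

lemma spec_mul_self (x : Tag l) : spec x * spec x = spec x := by
  have h : (∑ S : Finset (Fin l), chi x S • eta S) * (∑ U : Finset (Fin l), chi x U • eta U) =
      (2 : ℂ) ^ l • ∑ U : Finset (Fin l), chi x U • eta U := by
    rw [Matrix.sum_mul]
    have : ∀ S : Finset (Fin l), chi x S • eta S * (∑ U : Finset (Fin l), chi x U • eta U) =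
        ∑ U, chi x U • eta U := by
      intro S
      conv_rhs => rw [← sum_symmDiff S (fun U => chi x U • eta U)]
      rw [Matrix.mul_sum]
      refine sum_congr rfl fun U _ => ?_
      rw [Matrix.smul_mul, Matrix.mul_smul, smul_smul, eta_mul]
      rw [chi_mul]
    simp only [this, sum_const, card_univ, Fintype.card_finset, Fintype.card_fin]
    rw [← Nat.cast_smul_eq_nsmul ℂ]
    push_cast; rfl
  rw [spec, Matrix.smul_mul, Matrix.mul_smul, h, smul_smul, smul_smul]
  congr 1
  field_simp

lemma spec_psd (x : Tag l) : (spec x).PosSemidef := by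
  have hh : (spec x)ᴴ = spec x := by
    rw [spec, conjTranspose_smul, conjTranspose_sum]
    simp [conjTranspose_smul, eta_herm, ← Complex.star_def, chi_star]
  have := Matrix.posSemidef_conjTranspose_mul_self (spec x)
  rwa [hh, spec_mul_self] at this

lemma eta_eq_sum (S : Finset (Fin l)) : eta S = ∑ x : Tag l, chi x S • spec x := by
  simp only [spec, smul_sum, smul_smul]
  rw [sum_comm]
  simp only [← sum_smul]
  rw [Finset.sum_eq_single S]
  · have : ∀ x : Tag l, chi x S * (((2:ℂ) ^ l)⁻¹ * chi x S) = ((2:ℂ) ^ l)⁻¹ := by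
      intro x
      rw [mul_left_comm, chi_mul, symmDiff_self]
      simp [chi]
    simp only [this, sum_const, card_univ, Fintype.card_fun, Fintype.card_bool, Fintype.card_fin,
      nsmul_eq_mul]
    push_cast
    simp
  · intro U _ hU
    have : ∀ x : Tag l, chi x S * (((2:ℂ) ^ l)⁻¹ * chi x U) =
        ((2:ℂ) ^ l)⁻¹ * chi x (symmDiff S U) := by
      intro x; rw [← chi_mul]; ring
    simp only [this, ← mul_sum, chi_sum]
    have hne : symmDiff S U ≠ ∅ := fun h => hU (symmDiff_eq_bot.1 h).symm
    rw [if_neg hne, mul_zero, zero_smul]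
  · simp

/-- Positive spectral values give a positive operator. -/
lemma tag_psd {ι : Type} [Fintype ι] [DecidableEq ι] (F : Finset (Fin l) → Matrix ι ι ℂ)
    (h : ∀ x : Tag l, (∑ S, chi x S • F S).PosSemidef) :
    (∑ S, prodOp (F S) (eta S)).PosSemidef := by
  have e : ∑ S, prodOp (F S) (eta S) = ∑ x : Tag l, prodOp (∑ S, chi x S • F S) (spec x) := by
    ext p q
    simp only [Matrix.sum_apply, prodOp, eta_eq_sum, Matrix.smul_apply, smul_eq_mul, sum_mul,
      mul_sum]
    rw [sum_comm]
    exact sum_congr rfl fun x _ => sum_congr rfl fun S _ => by ring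
  rw [e]
  exact Matrix.posSemidef_sum _ fun x _ => prodOp_psd (h x) (spec_psd x)

lemma gam_sq (i : Fin l) : gmat ({i} : Finset (Fin l)) * gmat {i} = 1 := by
  rw [gmat_mul, symmDiff_self]
  have : xsign ({i} : Finset (Fin l)) {i} = 1 := tsign_singleton i
  simp [this, gmat_empty]

lemma gam_herm (i : Fin l) : (gmat ({i} : Finset (Fin l)))ᴴ = gmat {i} := by
  rw [gmat_conjTranspose, tsign_singleton]; simp

lemma gam_anticomm {i j : Fin l} (h : i ≠ j) :
    gmat ({i} : Finset (Fin l)) * gmat {j} + gmat {j} * gmat {i} = 0 := by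
  rw [gmat_mul, gmat_mul, symmDiff_comm ({j} : Finset (Fin l)), ← add_smul, ← Complex.ofReal_add]
  have : xsign ({j} : Finset (Fin l)) {i} + xsign ({i} : Finset (Fin l)) {j} = 0 := by
    have key : ∀ a b : Fin l, xsign ({a} : Finset (Fin l)) {b} = if b < a then -1 else 1 := by
      intro a b
      simp only [xsign, prod_singleton, mem_singleton]
      rw [Finset.prod_ite_eq']
      simp
    rw [key, key]
    rcases lt_or_gt_of_ne h with h' | h'
    · rw [if_pos h', if_neg h'.asymm]; ring
    · rw [if_neg h'.asymm, if_pos h']; ring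
  rw [this]; simp

end Vale.Agent.P372.Full
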