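import Vale.Agent.P372.Full.Pairing

/-!
The bound of the witness on product operators.
-/

open Matrix Finset
open scoped ComplexOrder

namespace Vale.Agent.P372.Full

open Vale.Agent.Results.P372.IndividualMeasurements
open Vale.Agent.P372.Link

variable {d m l : ℕ}

/-- An operator at one site together with its tag. -/
def emb (i : Fin l) (M : Matrix (Fin d) (Fin d) ℂ) : Matrix (Sys l d) (Sys l d) ℂ :=
  prodOp (sfam (Function.update (fun _ => (1 : Matrix (Fin d) (Fin d) ℂ)) i M)) (gmat {i})

lemma sfam_mul (A B : Fin l → Matrix (Fin d) (Fin d) ℂ) :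
    sfam A * sfam B = sfam fun k => A k * B k := by
  ext x y
  simp only [sfam, Matrix.mul_apply, ← prod_mul_distrib]
  rw [Fintype.prod_sum]

lemma sfam_one : sfam (fun _ : Fin l => (1 : Matrix (Fin d) (Fin d) ℂ)) = 1 := by
  ext x y
  simp [sfam, Matrix.one_apply, prod_boole, funext_iff]

lemma sfam_conj (A : Fin l → Matrix (Fin d) (Fin d) ℂ) : (sfam A)ᴴ = sfam fun k => (A k)ᴴ := by
  ext x y; simp [sfam]

lemma sfam_update (i : Fin l) (M : Matrix (Fin d) (Fin d) ℂ) (x y : Fin l → Fin d) :
    sfam (Function.update (fun _ => (1 : Matrix (Fin d) (Fin d) ℂ)) i M) x y =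
      M (x i) (y i) * ∏ j ∈ univ.erase i, (1 : Matrix (Fin d) (Fin d) ℂ) (x j) (y j) := by
  rw [sfam, ← Finset.mul_prod_erase univ _ (mem_univ i)]
  congr 1
  · simp
  · exact prod_congr rfl fun j hj => by rw [Function.update_of_ne (mem_erase.1 hj).1]

lemma emb_sum {ι : Type} (s : Finset ι) (i : Fin l) (c : ι → ℂ)
    (M : ι → Matrix (Fin d) (Fin d) ℂ) :
    emb i (∑ k ∈ s, c k • M k) = ∑ k ∈ s, c k • emb i (M k) := by
  ext x y
  simp only [emb, prodOp, sfam_update, Matrix.sum_apply, Matrix.smul_apply, smul_eq_mul, sum_mul]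
  exact sum_congr rfl fun k _ => by ring

lemma emb_star (i : Fin l) (M : Matrix (Fin d) (Fin d) ℂ) : (emb i M)ᴴ = emb i Mᴴ := by
  rw [emb, emb, prodOp_star, sfam_conj, gam_herm]
  congr 2
  funext k
  by_cases h : k = i
  · subst h; simp
  · simp [Function.update_of_ne h]

lemma emb_sq (i : Fin l) {S : Matrix (Fin d) (Fin d) ℂ} (hS : S * S = 1) :
    emb i S * emb i S = 1 := by
  rw [emb, prodOp_mul, sfam_mul, gam_sq]
  have : (fun k => Function.update (fun _ => (1 : Matrix (Fin d) (Fin d) ℂ)) i S k *
      Function.update (fun _ => (1 : Matrix (Fin d) (Fin d) ℂ)) i S k) = fun _ => 1 := by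
    funext k
    by_cases h : k = i
    · subst h; simp [hS]
    · simp [Function.update_of_ne h]
  rw [this, sfam_one, kron_eq]
  exact Matrix.one_kronecker_one

lemma emb_anticomm {i j : Fin l} (h : i ≠ j) (S T : Matrix (Fin d) (Fin d) ℂ) :
    emb i S * emb j T + emb j T * emb i S = 0 := by
  rw [emb, emb, prodOp_mul, prodOp_mul, sfam_mul, sfam_mul]
  have : (fun k => Function.update (fun _ => (1 : Matrix (Fin d) (Fin d) ℂ)) i S k *
      Function.update (fun _ => (1 : Matrix (Fin d) (Fin d) ℂ)) j T k) = fun k =>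
      Function.update (fun _ => (1 : Matrix (Fin d) (Fin d) ℂ)) j T k *
      Function.update (fun _ => (1 : Matrix (Fin d) (Fin d) ℂ)) i S k := by
    funext k
    by_cases hk : k = i
    · subst hk; simp [Function.update_of_ne h]
    · simp [Function.update_of_ne hk]
  rw [this]
  have hg := gam_anticomm h
  ext x y
  have hg' := congrFun (congrFun hg x.2) y.2
  simp only [Matrix.add_apply, Matrix.zero_apply, prodOp] at hg' ⊢
  rw [← mul_add, hg', mul_zero]

/-- Expectations of anticommuting reflections. -/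
lemma anticomm_bound {ι : Type} [Fintype ι] [DecidableEq ι] {α : Matrix ι ι ℂ}
    (hα : α.PosSemidef) (O : Fin l → Matrix ι ι ℂ) (hh : ∀ i, (O i)ᴴ = O i)
    (hs : ∀ i, O i * O i = 1) (hac : ∀ i j, i ≠ j → O i * O j + O j * O i = 0) :
    ∑ i, ((O i * α).trace.re) ^ 2 ≤ α.trace.re ^ 2 := by
  set x : Fin l → ℝ := fun i => (O i * α).trace.re with hx
  set q : ℝ := ∑ i, x i ^ 2 with hq
  set T := ∑ i, (x i : ℂ) • O i with hT
  have hTh : Tᴴ = T := by
    simp [hT, conjTranspose_sum, conjTranspose_smul, hh]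
  have hT2 : T * T = (q : ℂ) • 1 := by
    have e : (2:ℂ) • (T * T) = (2:ℂ) • ((q : ℂ) • 1) := by
      have e1 : T * T = ∑ i, ∑ j, ((x i : ℂ) * x j) • (O i * O j) := by
        rw [hT, Matrix.sum_mul]
        simp only [Matrix.mul_sum, Matrix.smul_mul, Matrix.mul_smul, smul_smul]
        exact sum_congr rfl fun i _ => sum_congr rfl fun j _ => by rw [mul_comm]
      calc (2:ℂ) • (T * T) = ∑ i, ∑ j, ((x i : ℂ) * x j) • (O i * O j + O j * O i) := by
            rw [two_smul]
            conv_lhs => arg 2; rw [e1, sum_comm]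
            rw [e1, ← sum_add_distrib]
            refine sum_congr rfl fun i _ => ?_
            rw [← sum_add_distrib]
            refine sum_congr rfl fun j _ => ?_
            rw [smul_add, mul_comm (x j : ℂ)]
        _ = _ := by
            rw [hq, Complex.ofReal_sum, sum_smul, smul_sum]
            refine sum_congr rfl fun i _ => ?_
            rw [Finset.sum_eq_single i (fun j _ hj => by rw [hac i j (Ne.symm hj), smul_zero])
              (by simp), hs, ← two_smul ℂ (1 : Matrix ι ι ℂ), smul_smul, smul_smul]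
            congr 1; push_cast; ring
    exact smul_right_injective _ (two_ne_zero : (2:ℂ) ≠ 0) e
  have hTr : (T * α).trace.re = q := by
    simp only [hT, Matrix.sum_mul, trace_sum, Complex.re_sum, Matrix.smul_mul, trace_smul,
      smul_eq_mul, Complex.re_ofReal_mul, hq, hx, sq]
  set t := α.trace.re with ht
  have hp : ∀ s : ℝ, 0 ≤ q * t - 2 * s * q + s ^ 2 * t := by
    intro s
    have h0 := (Complex.nonneg_iff.1 (psd_trace_mul
      (Matrix.posSemidef_conjTranspose_mul_self (T - (s : ℂ) • 1)) hα)).1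
    rw [conjTranspose_sub, conjTranspose_smul, conjTranspose_one, hTh, Complex.star_def,
      Complex.conj_ofReal] at h0
    simp only [Matrix.sub_mul, Matrix.mul_sub, Matrix.smul_mul, Matrix.mul_smul, Matrix.one_mul,
      Matrix.mul_one, hT2, trace_sub, trace_smul, smul_eq_mul, Complex.sub_re,
      Complex.re_ofReal_mul, hTr, ← ht] at h0
    linarith
  have hq0 : 0 ≤ q := sum_nonneg fun i _ => sq_nonneg _
  have ht0 : 0 ≤ t := (Complex.nonneg_iff.1 hα.trace_nonneg).1
  show q ≤ t ^ 2
  rcases eq_or_lt_of_le ht0 with ht' | ht'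
  · have := hp 1; rw [← ht'] at this ⊢; nlinarith
  · have h2 := mul_nonneg (hp (q / t)) ht0
    have e : (q * t - 2 * (q / t) * q + (q / t) ^ 2 * t) * t = q * (t ^ 2 - q) := by field_simp; ring
    rw [e] at h2
    by_contra hne
    nlinarith

/-- The trace norm of a marginal is an expectation of a reflection. -/
lemma marginal_spec (i : Fin l) {α : Matrix (Sys l d) (Sys l d) ℂ} (hα : α.PosSemidef) :
    ∃ (lam : Fin d → ℝ) (V S : Matrix (Fin d) (Fin d) ℂ),
      (∀ k, ∑ p, ‖V p k‖ ^ 2 = 1) ∧ Sᴴ = S ∧ S * S = 1 ∧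
      (∀ p r, (emb i (Matrix.single p r 1) * α).trace = ∑ k, (lam k : ℂ) * (V r k * star (V p k))) ∧
      (emb i S * α).trace.re = ∑ k, |lam k| := by
  let A : Matrix (Fin d) (Fin d) ℂ := Matrix.of fun r p => (emb i (Matrix.single p r 1) * α).trace
  have hA : A.IsHermitian := by
    ext r p
    simp only [A, conjTranspose_apply, Matrix.of_apply]
    rw [← trace_conjTranspose, conjTranspose_mul, hα.1.eq, emb_star, conjTranspose_single,
      trace_mul_comm, star_one]
  set V : Matrix (Fin d) (Fin d) ℂ := (hA.eigenvectorUnitary : Matrix (Fin d) (Fin d) ℂ) with hV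
  set lam := hA.eigenvalues with hl
  have hVV : Vᴴ * V = 1 := by rw [hV, ← star_eq_conjTranspose]; simp
  have hVV' : V * Vᴴ = 1 := mul_eq_one_comm.1 hVV
  have hspec : A = V * diagonal (fun k => ((lam k : ℝ) : ℂ)) * Vᴴ := by
    have := hA.spectral_theorem
    simpa [Unitary.conjStarAlgAut_apply, star_eq_conjTranspose, hV, hl, Function.comp_def]
      using this
  set sg : Fin d → ℂ := fun k => if 0 ≤ lam k then 1 else -1 with hsg
  set S := V * diagonal sg * Vᴴ with hS
  refine ⟨lam, V, S, ?_, ?_, ?_, ?_, ?_⟩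
  · intro k
    have := congrArg Complex.re (congrFun (congrFun hVV k) k)
    simp only [Matrix.mul_apply, conjTranspose_apply, Complex.re_sum, Matrix.one_apply_eq,
      Complex.one_re] at this
    rw [← this]
    refine sum_congr rfl fun p _ => ?_
    rw [Complex.sq_norm, Complex.normSq_apply]; simp
  · rw [hS, conjTranspose_mul, conjTranspose_mul, conjTranspose_conjTranspose,
      diagonal_conjTranspose, Matrix.mul_assoc]
    congr 3
    funext k; simp [hsg, apply_ite (starRingEnd ℂ)]
  · calc S * S = V * (diagonal sg * (Vᴴ * V) * diagonal sg) * Vᴴ := by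
          simp only [hS, Matrix.mul_assoc]
      _ = 1 := by
          rw [hVV, Matrix.mul_one, diagonal_mul_diagonal]
          have : (fun k => sg k * sg k) = fun _ => (1:ℂ) := by
            funext k; simp [hsg]; split_ifs <;> simp
          rw [this, diagonal_one, Matrix.mul_one, hVV']
  · intro p r
    have := congrFun (congrFun hspec r) p
    simp only [A, Matrix.of_apply] at this
    rw [this]
    simp only [Matrix.mul_apply, Matrix.diagonal_apply, mul_ite, mul_zero, Finset.sum_ite_eq',
      mem_univ, if_true, conjTranspose_apply]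
    exact sum_congr rfl fun k _ => by ring
  · have e : (emb i S * α).trace = (S * A).trace := by
      have hdec : S = ∑ q : Fin d × Fin d, S q.1 q.2 • Matrix.single q.1 q.2 (1:ℂ) := by
        rw [Fintype.sum_prod_type]
        conv_lhs => rw [Matrix.matrix_eq_sum_single S]
        simp [Matrix.smul_single]
      conv_lhs => rw [hdec, emb_sum, Matrix.sum_mul, trace_sum]
      have e3 : (S * A).trace = ∑ p, ∑ r, S p r * A r p := by
        simp [Matrix.trace, Matrix.mul_apply]
      rw [e3, Fintype.sum_prod_type]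
      simp only [Matrix.smul_mul, trace_smul, smul_eq_mul]
      rfl
    rw [e]
    have e2 : (S * A).trace = ∑ k, sg k * (lam k : ℂ) := by
      rw [hspec, hS]
      calc _ = (V * (diagonal sg * (Vᴴ * V) * diagonal fun k => ((lam k : ℝ) : ℂ)) * Vᴴ).trace := by
            simp only [Matrix.mul_assoc]
        _ = _ := by
            rw [hVV, Matrix.mul_one, diagonal_mul_diagonal, Matrix.mul_assoc, trace_mul_comm,
              Matrix.mul_assoc, hVV, Matrix.mul_one, trace_diagonal]
    rw [e2, Complex.re_sum]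
    refine sum_congr rfl fun k _ => ?_
    simp only [hsg]
    split_ifs with h
    · simp [abs_of_nonneg h]
    · simp [abs_of_neg (not_le.1 h)]

/-- The witness is small on product operators. -/
lemma wit_product_le (U : Fin m → Fin d → Fin d → ℝ) {C : ℝ} (hC0 : 0 ≤ C)
    (hC : ∀ a b : Fin d → ℂ, ∑ k, ‖∑ i, ∑ j, a i * (U k i j : ℂ) * b j‖ ^ 2 ≤
      C * (∑ i, ‖a i‖ ^ 2) * ∑ j, ‖b j‖ ^ 2)
    {α β : Matrix (Sys l d) (Sys l d) ℂ} (hα : α.PosSemidef) (hβ : β.PosSemidef) :
    (wit l (vecOp U) * prodOp α β).trace.re ≤ C * (α.trace.re * β.trace.re) := by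
  classical
  have hdec : wit l (vecOp U) = ∑ i : Fin l, ∑ x : Pair d, ∑ y : Pair d, vecOp U x y •
      prodOp (emb i (Matrix.single x.1 y.1 1)) (emb i (Matrix.single x.2 y.2 1)) := by
    ext ⟨⟨a, e⟩, ⟨b, f⟩⟩ ⟨⟨a', e'⟩, ⟨b', f'⟩⟩
    simp only [wit, shuffle, Matrix.submatrix_apply, Equiv.prodProdProdComm_apply, Matrix.sum_apply,
      Matrix.smul_apply, smul_eq_mul, prodOp, eta, emb, sfam_update]
    refine sum_congr rfl fun i _ => ?_
    have hf : fam ({i} : Finset (Fin l)) 1 (vecOp U) (a, b) (a', b') =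
        vecOp U (a i, b i) (a' i, b' i) *
          (∏ j ∈ univ.erase i, (1 : Matrix (Fin d) (Fin d) ℂ) (a j) (a' j)) *
          ∏ j ∈ univ.erase i, (1 : Matrix (Fin d) (Fin d) ℂ) (b j) (b' j) := by
      simp only [fam, tfam]
      rw [← Finset.mul_prod_erase univ _ (mem_univ i), mul_assoc, ← prod_mul_distrib]
      congr 1
      · simp
      · refine prod_congr rfl fun j hj => ?_
        have : j ∉ ({i} : Finset (Fin l)) := by simpa using (mem_erase.1 hj).1
        simp [this, Matrix.one_apply, Prod.ext_iff, ite_and]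
        split_ifs <;> simp_all
    rw [hf, Finset.sum_eq_single (a i, b i), Finset.sum_eq_single (a' i, b' i)]
    · simp; ring
    · intro y _ hy
      rcases eq_or_ne y.1 (a' i) with h1 | h1
      · have h2 : y.2 ≠ b' i := fun h2 => hy (Prod.ext h1 h2)
        simp [Matrix.single_apply, h2]
      · simp [Matrix.single_apply, h1]
    · simp
    · intro x _ hx
      refine sum_eq_zero fun y _ => ?_
      rcases eq_or_ne x.1 (a i) with h1 | h1
      · have h2 : x.2 ≠ b i := fun h2 => hx (Prod.ext h1 h2)
        simp [Matrix.single_apply, h2]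
      · simp [Matrix.single_apply, h1]
    · simp
  choose la V SA hV hSA hSA2 hAe hAn using fun i => marginal_spec i hα
  choose mu W SB hW hSB hSB2 hBe hBn using fun i => marginal_spec i hβ
  let g : Fin l → Fin d → Fin d → Fin m → ℂ := fun i k k' n =>
    ∑ p, ∑ q, star (V i p k) * (U n p q : ℂ) * star (W i q k')
  have hterm : (wit l (vecOp U) * prodOp α β).trace.re =
      ∑ i, ∑ k, ∑ k', la i k * mu i k' * ∑ n, ‖g i k k' n‖ ^ 2 := by
    rw [hdec]
    simp only [Matrix.sum_mul, trace_sum, Matrix.smul_mul, trace_smul, prodOp_mul]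
    simp only [kron_eq, Matrix.trace_kronecker, smul_eq_mul, hAe, hBe]
    rw [Complex.re_sum]
    refine sum_congr rfl fun i _ => ?_
    have hp : ∀ f : Fin d → Fin d → ℂ, ∑ p, ∑ q, f p q = ∑ x : Pair d, f x.1 x.2 :=
      fun f => (Fintype.sum_prod_type (f := fun x : Pair d => f x.1 x.2)).symm
    have hn : ∀ k k' n, ((‖g i k k' n‖ : ℂ)) ^ 2 =
        (∑ p, ∑ q, star (V i p k) * (U n p q : ℂ) * star (W i q k')) *
          (∑ r, ∑ s, V i r k * (U n r s : ℂ) * W i s k') := by
      intro k k' n
      rw [← Complex.mul_conj']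
      simp [g, map_sum]
    have hxy : ∀ x y : Pair d, vecOp U x y *
        ((∑ k, (la i k : ℂ) * (V i y.1 k * star (V i x.1 k))) *
          ∑ k', (mu i k' : ℂ) * (W i y.2 k' * star (W i x.2 k'))) =
        ∑ k, ∑ k', ∑ n, (la i k : ℂ) * (mu i k' : ℂ) *
          (star (V i x.1 k) * (U n x.1 x.2 : ℂ) * star (W i x.2 k') *
            (V i y.1 k * (U n y.1 y.2 : ℂ) * W i y.2 k')) := by
      intro x y
      rw [Finset.sum_mul_sum, mul_sum]
      refine sum_congr rfl fun k _ => ?_
      rw [mul_sum]
      refine sum_congr rfl fun k' _ => ?_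
      simp only [vecOp, Matrix.of_apply, Complex.ofReal_sum, Complex.ofReal_mul]
      rw [sum_mul]
      exact sum_congr rfl fun n _ => by ring
    have : ∑ x : Pair d, ∑ y : Pair d, vecOp U x y *
        ((∑ k, (la i k : ℂ) * (V i y.1 k * star (V i x.1 k))) *
          ∑ k', (mu i k' : ℂ) * (W i y.2 k' * star (W i x.2 k'))) =
        ((∑ k, ∑ k', la i k * mu i k' * ∑ n, ‖g i k k' n‖ ^ 2 : ℝ) : ℂ) := by
      push_cast
      simp only [hxy]
      calc _ = ∑ k, ∑ k', ∑ n, ∑ x : Pair d, ∑ y : Pair d, (la i k : ℂ) * (mu i k' : ℂ) *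
            (star (V i x.1 k) * (U n x.1 x.2 : ℂ) * star (W i x.2 k') *
              (V i y.1 k * (U n y.1 y.2 : ℂ) * W i y.2 k')) := by
            refine ((sum_congr rfl fun x _ => sum_comm).trans sum_comm).trans ?_
            refine sum_congr rfl fun k _ => ?_
            refine ((sum_congr rfl fun x _ => sum_comm).trans sum_comm).trans ?_
            refine sum_congr rfl fun k' _ => ?_
            exact (sum_congr rfl fun x _ => sum_comm).trans sum_comm
        _ = _ := by
            refine sum_congr rfl fun k _ => sum_congr rfl fun k' _ => ?_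
            rw [mul_sum]
            refine sum_congr rfl fun n _ => ?_
            rw [hn, hp, hp, Finset.sum_mul_sum, mul_sum]
            refine sum_congr rfl fun x _ => ?_
            rw [mul_sum]
    rw [this, Complex.ofReal_re]
  rw [hterm]
  have hg : ∀ i k k', ∑ n, ‖g i k k' n‖ ^ 2 ≤ C := by
    intro i k k'
    have := hC (fun p => star (V i p k)) (fun q => star (W i q k'))
    simpa [g, hV, hW] using this
  calc ∑ i, ∑ k, ∑ k', la i k * mu i k' * ∑ n, ‖g i k k' n‖ ^ 2
      ≤ ∑ i, ∑ k, ∑ k', |la i k| * |mu i k'| * C := by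
        refine sum_le_sum fun i _ => sum_le_sum fun k _ => sum_le_sum fun k' _ => ?_
        refine (mul_le_mul_of_nonneg_right ((le_abs_self _).trans (le_of_eq (abs_mul _ _)))
          (sum_nonneg fun n _ => sq_nonneg _)).trans ?_
        exact mul_le_mul_of_nonneg_left (hg i k k') (by positivity)
    _ = C * ∑ i, (emb i (SA i) * α).trace.re * (emb i (SB i) * β).trace.re := by
        simp only [hAn, hBn, mul_sum, sum_mul]
        exact sum_congr rfl fun i _ => sum_comm.trans
          (sum_congr rfl fun _ _ => sum_congr rfl fun _ _ => by ring)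
    _ ≤ C * (α.trace.re * β.trace.re) := by
        refine mul_le_mul_of_nonneg_left ?_ hC0
        have h1 := anticomm_bound hα (fun i => emb i (SA i)) (fun i => by rw [emb_star, hSA])
          (fun i => emb_sq i (hSA2 i)) (fun i j h => emb_anticomm h _ _)
        have h2 := anticomm_bound hβ (fun i => emb i (SB i)) (fun i => by rw [emb_star, hSB])
          (fun i => emb_sq i (hSB2 i)) (fun i j h => emb_anticomm h _ _)
        refine (Real.sum_mul_le_sqrt_mul_sqrt _ _ _).trans ?_
        refine mul_le_mul ?_ ?_ (Real.sqrt_nonneg _) ?_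
        · exact (Real.sqrt_le_sqrt h1).trans (le_of_eq (Real.sqrt_sq
            (Complex.nonneg_iff.1 hα.trace_nonneg).1))
        · exact (Real.sqrt_le_sqrt h2).trans (le_of_eq (Real.sqrt_sq
            (Complex.nonneg_iff.1 hβ.trace_nonneg).1))
        · exact (Complex.nonneg_iff.1 hα.trace_nonneg).1

end Vale.Agent.P372.Full
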